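import Mathlib
import Vale.Agent.P110.UF.Defs

/-!
# P110 phase design: chirp integrals over one and over two adjacent quadratic pieces
-/

open Finset MeasureTheory

namespace Vale.Agent.P110.UF

theorem ex_add (x y : ℝ) : ex (x + y) = ex x * ex y := by
  simp only [ex, ← Complex.exp_add]
  congr 1
  push_cast
  ring

theorem ex_zero : ex 0 = 1 := by simp [ex]

theorem norm_ex (x : ℝ) : ‖ex x‖ = 1 := Complex.norm_exp_ofReal_mul_I _

theorem ex_intCast (n : ℤ) : ex n = 1 := by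
  rw [ex]
  convert Complex.exp_int_mul_two_pi_mul_I n using 2
  push_cast
  ring

theorem ex_add_int (x : ℝ) (n : ℤ) : ex (x + n) = ex x := by rw [ex_add, ex_intCast, mul_one]

theorem ex_neg (x : ℝ) : ex (-x) = (starRingEnd ℂ) (ex x) := by
  rw [ex, ex, ← Complex.exp_conj]
  congr 1
  rw [map_mul, Complex.conj_I, Complex.conj_ofReal]
  push_cast
  ring

theorem continuous_ex : Continuous ex := by unfold ex; fun_prop

theorem norm_ex_sub_le (x y : ℝ) : ‖ex x - ex y‖ ≤ 2 * Real.pi * |x - y| := by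
  have h : ex x - ex y =
      ex y * (Complex.exp (Complex.I * ((2 * Real.pi * (x - y) : ℝ) : ℂ)) - 1) := by
    rw [mul_sub, mul_one, mul_comm Complex.I]
    change _ = ex y * ex (x - y) - ex y
    rw [← ex_add, add_sub_cancel]
  rw [h, norm_mul, norm_ex, one_mul]
  refine (Real.norm_exp_I_mul_ofReal_sub_one_le).trans ?_
  rw [Real.norm_eq_abs, abs_mul, abs_of_pos (by positivity : (0 : ℝ) < 2 * Real.pi)]

theorem intInt_ex {f : ℝ → ℝ} (hf : Continuous f) (a b : ℝ) :
    IntervalIntegrable (fun x => ex (f x)) volume a b :=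
  (continuous_ex.comp hf).intervalIntegrable _ _

theorem chirp_neg_neg (σ a b : ℝ) : chirp σ (-b) (-a) = chirp σ a b := by
  unfold chirp
  rw [← intervalIntegral.integral_comp_neg (fun x => ex (σ * x ^ 2 / 2))]
  simp

theorem chirp_add (σ a b c : ℝ) : chirp σ a b + chirp σ b c = chirp σ a c :=
  intervalIntegral.integral_add_adjacent_intervals (intInt_ex (by fun_prop) a b)
    (intInt_ex (by fun_prop) b c)

theorem chirp_swap (σ a b : ℝ) : chirp σ b a = -chirp σ a b :=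
  intervalIntegral.integral_symm a b

/-- Completing the square. -/
theorem integral_quad {σ : ℝ} (hσ : σ ≠ 0) (c₀ c₁ p a b : ℝ) :
    ∫ x in a..b, ex (c₀ + c₁ * (x - p) + σ * (x - p) ^ 2 / 2) =
      ex (c₀ - c₁ ^ 2 / (2 * σ)) * chirp σ (a - p + c₁ / σ) (b - p + c₁ / σ) := by
  unfold chirp
  rw [show a - p + c₁ / σ = a + (c₁ / σ - p) by ring, show b - p + c₁ / σ = b + (c₁ / σ - p) by ring,
    ← intervalIntegral.integral_comp_add_right (fun x => ex (σ * x ^ 2 / 2)),
    ← intervalIntegral.integral_const_mul]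
  refine intervalIntegral.integral_congr fun x _ => ?_
  change ex (c₀ + c₁ * (x - p) + σ * (x - p) ^ 2 / 2) =
    ex (c₀ - c₁ ^ 2 / (2 * σ)) * ex (σ * (x + (c₁ / σ - p)) ^ 2 / 2)
  rw [← ex_add]
  congr 1
  field_simp
  ring

/-- The bounds of `FresnelStmt` for a given constant. -/
structure FresnelBound (C : ℝ) : Prop where
  pos : 0 < C
  crude : ∀ σ, σ ≠ 0 → ∀ a b, ‖chirp σ a b‖ ≤ C / Real.sqrt |σ|
  right : ∀ σ, σ ≠ 0 → ∀ R a b, 0 < R → R ≤ a → R ≤ b → ‖chirp σ a b‖ ≤ C / (|σ| * R)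
  left : ∀ σ, σ ≠ 0 → ∀ R a b, 0 < R → a ≤ -R → b ≤ -R → ‖chirp σ a b‖ ≤ C / (|σ| * R)
  full : ∀ σ, σ ≠ 0 → ∀ R a b, 0 < R → a ≤ -R → R ≤ b →
    ‖chirp σ a b - kappa σ / (Real.sqrt |σ| : ℝ)‖ ≤ C / (|σ| * R)

theorem exists_fresnelBound (h : FresnelStmt) : ∃ C, FresnelBound C := by
  obtain ⟨C, hC, h⟩ := h
  exact ⟨C, hC, fun σ hσ => (h σ hσ).1, fun σ hσ => (h σ hσ).2.1, fun σ hσ => (h σ hσ).2.2.1,
    fun σ hσ => (h σ hσ).2.2.2⟩

/-- Two adjacent pieces with nearly equal curvature act as one, seen from a stationary point `u`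
in the right piece. -/
theorem junction {C : ℝ} (hC : FresnelBound C) {σ σ' ε U A B u : ℝ} (hσ : σ ≠ 0)
    (hε1 : ε ≤ 1 / 2) (hσ' : |σ' - σ| ≤ ε * |σ|) (hU : 0 < U)
    (hB : U / Real.sqrt |σ| ≤ B) (hu0 : 0 ≤ u) (huA : u ≤ A / 2)
    (hA : U / Real.sqrt |σ| ≤ A) :
    ‖(∫ x in (-B)..0, ex (σ' * x ^ 2 / 2 - σ * u * x)) + (∫ x in (0 : ℝ)..A,
        ex (σ * x ^ 2 / 2 - σ * u * x)) - ex (-(σ * u ^ 2 / 2)) * (kappa σ / (Real.sqrt |σ| : ℝ))‖
      ≤ (20 * C / U + 4 * ε * U ^ 3) / Real.sqrt |σ| := by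
  set s := Real.sqrt |σ| with hs
  have hs0 : 0 < s := Real.sqrt_pos.2 (abs_pos.2 hσ)
  have hss : s * s = |σ| := Real.mul_self_sqrt (abs_nonneg σ)
  set X := U / s with hX
  have hX0 : 0 < X := div_pos hU hs0
  have hX2 : |σ| * X = s * U := by rw [hX, ← hss]; field_simp
  have hε : 0 ≤ ε := by
    by_contra h
    nlinarith [abs_nonneg (σ' - σ), abs_pos.2 hσ]
  have hlow : |σ| / 2 ≤ |σ'| := by
    have := abs_sub_abs_le_abs_sub σ σ'
    rw [abs_sub_comm σ σ'] at this
    nlinarith [abs_pos.2 hσ]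
  have hσ'0 : σ' ≠ 0 := fun e => by rw [e, abs_zero] at hlow; linarith [abs_pos.2 hσ]
  -- the stationary point of the left piece
  obtain ⟨u', hu', hu'u⟩ : ∃ u', σ' * u' = σ * u ∧ u / 2 ≤ u' := by
    refine ⟨σ * u / σ', by field_simp, ?_⟩
    have h := abs_le.1 hσ'
    rcases lt_or_gt_of_ne hσ with hneg | hpos
    · rw [abs_of_neg hneg] at h
      have hσn : σ' < 0 := by nlinarith [h.2]
      rw [le_div_iff_of_neg hσn]
      nlinarith [mul_nonneg hu0 (show 0 ≤ σ' - 2 * σ by nlinarith [h.1])]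
    · rw [abs_of_pos hpos] at h
      have hσp : 0 < σ' := by nlinarith [h.1]
      rw [le_div_iff₀ hσp]
      nlinarith [mul_nonneg hu0 (show 0 ≤ 2 * σ - σ' by nlinarith [h.2])]
  have hu'0 : 0 ≤ u' := le_trans (by linarith) hu'u
  have hR : ∀ a b, ∫ x in a..b, ex (σ * x ^ 2 / 2 - σ * u * x) =
      ex (-(σ * u ^ 2 / 2)) * chirp σ (a - u) (b - u) := fun a b => by
    have h := integral_quad hσ 0 (-(σ * u)) 0 a b
    simp only [sub_zero, zero_add, zero_sub] at h
    rw [show (fun x => ex (σ * x ^ 2 / 2 - σ * u * x)) =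
      fun x => ex (-(σ * u) * x + σ * x ^ 2 / 2) from funext fun x => by congr 1; ring, h]
    congr 2 <;> field_simp <;> ring
  have hL : ∀ a b, ‖∫ x in a..b, ex (σ' * x ^ 2 / 2 - σ * u * x)‖ =
      ‖chirp σ' (a - u') (b - u')‖ := fun a b => by
    have h := integral_quad hσ'0 0 (-(σ' * u')) 0 a b
    simp only [sub_zero, zero_add, zero_sub] at h
    rw [show (fun x => ex (σ' * x ^ 2 / 2 - σ * u * x)) =
      fun x => ex (-(σ' * u') * x + σ' * x ^ 2 / 2) from
        funext fun x => by congr 1; rw [← hu']; ring, h, norm_mul, norm_ex, one_mul]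
    congr 2 <;> field_simp <;> ring
  have far' : ∀ R, 0 < R → X / 8 ≤ R → ∀ a b, a ≤ -R → b ≤ -R →
      ‖chirp σ' a b‖ ≤ 16 * C / U / s := by
    intro R hR0 hRX a b ha hb
    refine (hC.left σ' hσ'0 R a b hR0 ha hb).trans ?_
    have h1 : |σ| / 2 * (X / 8) ≤ |σ'| * R :=
      mul_le_mul hlow hRX (by positivity) (abs_nonneg _)
    refine (div_le_div_of_nonneg_left hC.pos.le (by positivity) h1).trans (le_of_eq ?_)
    rw [show |σ| / 2 * (X / 8) = s * U / 16 by rw [← hX2]; ring]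
    field_simp
  have full : ∀ R, 0 < R → X / 4 ≤ R → ∀ a b, a ≤ -R → R ≤ b →
      ‖ex (-(σ * u ^ 2 / 2)) * chirp σ a b -
        ex (-(σ * u ^ 2 / 2)) * (kappa σ / (s : ℝ))‖ ≤ 4 * C / U / s := by
    intro R hR0 hRX a b ha hb
    rw [← mul_sub, norm_mul, norm_ex, one_mul]
    refine (hC.full σ hσ R a b hR0 ha hb).trans ?_
    refine (div_le_div_of_nonneg_left hC.pos.le (by positivity)
      (mul_le_mul_of_nonneg_left hRX (abs_nonneg σ))).trans (le_of_eq ?_)
    rw [show |σ| * (X / 4) = s * U / 4 by rw [← hX2]; ring]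
    field_simp
  rcases le_or_gt (X / 4) u with hu | hu
  · have hQ : ‖∫ x in (-B)..0, ex (σ' * x ^ 2 / 2 - σ * u * x)‖ ≤ 16 * C / U / s := by
      rw [hL]
      exact far' (X / 8) (by positivity) le_rfl _ _ (by linarith) (by linarith)
    rw [hR 0 A, add_sub_assoc]
    refine (norm_add_le _ _).trans ?_
    have hP := full (X / 4) (by positivity) le_rfl (0 - u) (A - u) (by linarith) (by linarith)
    have h0 : 0 ≤ 4 * ε * U ^ 3 / s := by positivity
    calc _ ≤ 16 * C / U / s + 4 * C / U / s := add_le_add hQ hP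
      _ ≤ _ := by rw [add_div]; ring_nf; ring_nf at h0; linarith
  · set f := fun x : ℝ => ex (σ' * x ^ 2 / 2 - σ * u * x) with hf
    set g := fun x : ℝ => ex (σ * x ^ 2 / 2 - σ * u * x) with hg
    have hfi : ∀ a b, IntervalIntegrable f volume a b := fun a b => intInt_ex (by fun_prop) a b
    have hgi : ∀ a b, IntervalIntegrable g volume a b := fun a b => intInt_ex (by fun_prop) a b
    have hfar : ‖∫ x in (-B)..(-X), f x‖ ≤ 16 * C / U / s := by
      rw [hf, hL]
      exact far' (X / 8) (by positivity) le_rfl _ _ (by linarith) (by linarith)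
    have hnear : ‖(∫ x in (-X)..0, f x) - ∫ x in (-X)..0, g x‖ ≤ 4 * ε * U ^ 3 / s := by
      rw [← intervalIntegral.integral_sub (hfi _ _) (hgi _ _)]
      refine (intervalIntegral.norm_integral_le_of_norm_le_const (C := 4 * ε * (|σ| * X ^ 2))
        fun x hx => ?_).trans (le_of_eq ?_)
      · rw [Set.uIoc_of_le (by linarith)] at hx
        refine (norm_ex_sub_le _ _).trans ?_
        rw [show σ' * x ^ 2 / 2 - σ * u * x - (σ * x ^ 2 / 2 - σ * u * x) =
          (σ' - σ) * (x ^ 2 / 2) by ring, abs_mul, abs_of_nonneg (by positivity : 0 ≤ x ^ 2 / 2)]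
        have hx2 : x ^ 2 ≤ X ^ 2 := by nlinarith [hx.1, hx.2]
        have h1 : |σ' - σ| * (x ^ 2 / 2) ≤ ε * |σ| * (X ^ 2 / 2) :=
          mul_le_mul hσ' (by linarith) (by positivity) (by positivity)
        calc 2 * Real.pi * (|σ' - σ| * (x ^ 2 / 2)) ≤ 2 * 4 * (ε * |σ| * (X ^ 2 / 2)) := by
              exact mul_le_mul (by linarith [Real.pi_lt_four]) h1 (by positivity) (by norm_num)
          _ = 4 * ε * (|σ| * X ^ 2) := by ring
      · rw [show (0 : ℝ) - -X = X by ring, abs_of_pos hX0, hX, ← hss]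
        field_simp
    have hmain : ‖(∫ x in (-X)..A, g x) - ex (-(σ * u ^ 2 / 2)) * (kappa σ / (s : ℝ))‖
        ≤ 4 * C / U / s := by
      rw [hg, hR]
      exact full (X / 4) (by positivity) le_rfl _ _ (by linarith) (by linarith)
    rw [← intervalIntegral.integral_add_adjacent_intervals (hfi (-B) (-X)) (hfi (-X) 0)]
    have hsplit := intervalIntegral.integral_add_adjacent_intervals (hgi (-X) 0) (hgi 0 A)
    calc _ = ‖(∫ x in (-B)..(-X), f x) + ((∫ x in (-X)..0, f x) - ∫ x in (-X)..0, g x) +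
          ((∫ x in (-X)..A, g x) - ex (-(σ * u ^ 2 / 2)) * (kappa σ / (s : ℝ)))‖ := by
          rw [← hsplit]; congr 1; ring
      _ ≤ 16 * C / U / s + 4 * ε * U ^ 3 / s + 4 * C / U / s :=
          (norm_add₃_le).trans (by linarith)
      _ = _ := by ring

end Vale.Agent.P110.UF
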