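import Mathlib
import Vale.Agent.P110.UF.Defs

/-!
# P110: the two halves of the phase design

`Phase η M N` says that `exp (2 π i N Φ)` is a periodic odd phase whose group delay `τ` stays in
`[η, 1 - η]` and is `M`-Lipschitz.  `TruncStmt` cuts its Fourier series to degree `< N` keeping the
modulus; `DesignStmt` provides such phases with all coefficients bounded by `1 + η`.
-/

open Finset

namespace Vale.Agent.P110.UF

/-- Admissible phase with group delay `τ`. -/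
structure Phase (η M : ℝ) (N : ℕ) (Φ τ : ℝ → ℝ) : Prop where
  deriv : ∀ x, HasDerivAt Φ (τ x) x
  periodic : ∀ x, ex (N * Φ (x + 1)) = ex (N * Φ x)
  odd : ∀ x, Φ (-x) = -Φ x
  range : ∀ x, η ≤ τ x ∧ τ x ≤ 1 - η
  lip : ∀ x y, |τ x - τ y| ≤ M * |x - y|

/-- Coefficient number `t` of `√N exp (2 π i N Φ)`; it is real as `Φ` is odd. -/
noncomputable def phaseCoef (N : ℕ) (Φ : ℝ → ℝ) (t : ℤ) : ℝ :=
  Real.sqrt N * (∫ x in (-(1 / 2 : ℝ))..(1 / 2), ex (N * Φ x - t * x)).re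

/-- A damped truncation to degree below `N` of the series keeps the modulus and the energy. -/
def TruncStmt : Prop :=
  ∀ η M δ : ℝ, 0 < η → η < 1 / 2 → 0 < δ → ∃ N₀ : ℕ, ∀ N : ℕ, N₀ ≤ N →
    ∀ Φ τ : ℝ → ℝ, Phase η M N Φ τ →
    ∃ w : Fin N → ℝ, (∀ k, 0 ≤ w k ∧ w k ≤ 1) ∧
      (∀ z : ℂ, ‖z‖ = 1 →
        |‖poly (fun k => w k * phaseCoef N Φ (k : ℕ)) z‖ - Real.sqrt N| ≤ δ * Real.sqrt N) ∧
      (1 - δ) * N ≤ ∑ k, (w k * phaseCoef N Φ (k : ℕ)) ^ 2

/-- Phases with bounded coefficients. -/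
def DesignStmt : Prop :=
  ∀ δ : ℝ, 0 < δ → ∃ η M : ℝ, 0 < η ∧ η < 1 / 2 ∧ ∃ N₀ : ℕ, ∀ N : ℕ, N₀ ≤ N →
    ∃ Φ τ : ℝ → ℝ, Phase η M N Φ τ ∧ ∀ k : Fin N, |phaseCoef N Φ (k : ℕ)| ≤ 1 + δ

/-- Truncation and design give fractional ultraflat vectors. -/
theorem signal_of (hT : TruncStmt) (hD : DesignStmt) : SignalStmt := by
  intro ζ hζ
  set δ : ℝ := min (ζ / 4) (1 / 4) with hδdef
  have hδ : 0 < δ := lt_min (by linarith) (by norm_num)
  have hδ1 : δ ≤ ζ / 4 := min_le_left _ _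
  have hδ2 : δ ≤ 1 / 4 := min_le_right _ _
  obtain ⟨η, M, hη, hη2, N₁, hN₁⟩ := hD δ hδ
  obtain ⟨N₂, hN₂⟩ := hT η M δ hη hη2 hδ
  refine ⟨max N₁ N₂, fun N hN => ?_⟩
  obtain ⟨Φ, τ, hP, hb⟩ := hN₁ N (le_trans (le_max_left _ _) hN)
  obtain ⟨w, hw, hflat, hen⟩ := hN₂ N (le_trans (le_max_right _ _) hN) Φ τ hP
  have h1 : (0 : ℝ) < 1 + δ := by linarith
  set q : Fin N → ℝ := fun k => w k * phaseCoef N Φ (k : ℕ)
  have hq : ∀ k, |q k| ≤ 1 + δ := fun k => by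
    rw [abs_mul, abs_of_nonneg (hw k).1]
    exact le_trans (mul_le_of_le_one_left (abs_nonneg _) (hw k).2) (hb k)
  have hN0 : (0 : ℝ) ≤ N := Nat.cast_nonneg _
  refine ⟨fun k => q k / (1 + δ), fun k => ?_, ?_, fun z hz => ?_⟩
  · rw [abs_div, abs_of_pos h1, div_le_one h1]
    exact hq k
  · have key : ∀ k, 1 - |q k / (1 + δ)| ≤ 1 - (q k / (1 + δ)) ^ 2 := fun k => by
      have h := (div_le_one h1).2 (hq k)
      rw [← abs_of_pos h1, ← abs_div] at h
      rw [← sq_abs (q k / (1 + δ))]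
      nlinarith [abs_nonneg (q k / (1 + δ))]
    refine le_trans (sum_le_sum fun k _ => key k) ?_
    rw [sum_sub_distrib]
    simp only [div_pow, ← Finset.sum_div, sum_const, card_univ, Fintype.card_fin, nsmul_eq_mul,
      mul_one]
    have h4 : (1 - δ) * (1 - 2 * δ) * N ≤ (∑ k, q k ^ 2) / (1 + δ) ^ 2 := by
      rw [le_div_iff₀ (by positivity)]
      have : (1 - 2 * δ) * (1 + δ) ^ 2 ≤ 1 := by nlinarith [sq_nonneg δ]
      calc (1 - δ) * (1 - 2 * δ) * N * (1 + δ) ^ 2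
          = ((1 - δ) * N) * ((1 - 2 * δ) * (1 + δ) ^ 2) := by ring
        _ ≤ ((1 - δ) * N) * 1 := by
            apply mul_le_mul_of_nonneg_left this
            nlinarith
        _ ≤ _ := by linarith
    nlinarith [mul_nonneg (mul_nonneg hδ.le hδ.le) hN0, mul_le_mul_of_nonneg_right hδ1 hN0]
  · have hp : poly (fun k => q k / (1 + δ)) z = ((1 / (1 + δ) : ℝ) : ℂ) * poly q z := by
      unfold poly
      rw [mul_sum]
      refine sum_congr rfl fun k _ => ?_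
      push_cast
      ring
    rw [hp, norm_mul, Complex.norm_real, Real.norm_of_nonneg (by positivity), one_div,
      inv_mul_eq_div, abs_le]
    have h := abs_le.1 (hflat z hz)
    have hs : 0 ≤ Real.sqrt N := Real.sqrt_nonneg _
    constructor
    · rw [le_sub_iff_add_le, le_div_iff₀ h1]
      nlinarith [h.1]
    · rw [sub_le_iff_le_add, div_le_iff₀ h1]
      nlinarith [h.2]

end Vale.Agent.P110.UF
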