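import Mathlib
import Vale.Agent.P110.UF.Defs

/-!
# P110 phase design: piecewise linear functions
-/

open Finset

namespace Vale.Agent.P110.UF

/-- The ramp from `0` at `a` to `1` at `b`. -/
noncomputable def ramp (a b x : ℝ) : ℝ := max 0 (min 1 ((x - a) / (b - a)))

theorem ramp_of_le {a b x : ℝ} (hab : a < b) (h : x ≤ a) : ramp a b x = 0 := by
  unfold ramp
  refine max_eq_left (le_trans (min_le_right _ _) ?_)
  exact div_nonpos_of_nonpos_of_nonneg (by linarith) (by linarith)

theorem ramp_of_ge {a b x : ℝ} (hab : a < b) (h : b ≤ x) : ramp a b x = 1 := by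
  unfold ramp
  rw [min_eq_left ((one_le_div (by linarith)).2 (by linarith))]
  simp

theorem ramp_of_mem {a b x : ℝ} (hab : a < b) (h1 : a ≤ x) (h2 : x ≤ b) :
    ramp a b x = (x - a) / (b - a) := by
  unfold ramp
  rw [min_eq_right ((div_le_one (by linarith)).2 (by linarith)),
    max_eq_right (div_nonneg (by linarith) (by linarith))]

theorem ramp_lip {a b : ℝ} (hab : a < b) (x y : ℝ) :
    |ramp a b x - ramp a b y| ≤ |x - y| / (b - a) := by
  unfold ramp
  refine (abs_max_sub_max_le_max _ _ _ _).trans (max_le (by simp only [sub_self, abs_zero]; exact div_nonneg (abs_nonneg _) (by linarith)) ?_)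
  · refine (abs_min_sub_min_le_max _ _ _ _).trans (max_le (by simp only [sub_self, abs_zero]; exact div_nonneg (abs_nonneg _) (by linarith)) ?_)
    rw [← sub_div, sub_sub_sub_cancel_right, abs_div, abs_of_pos (sub_pos.2 hab)]

/-- The piecewise linear function through `(k l, v l)`, `l ≤ n`, constant outside. -/
noncomputable def pl (k v : ℕ → ℝ) (n : ℕ) (x : ℝ) : ℝ :=
  v 0 + ∑ l ∈ range n, (v (l + 1) - v l) * ramp (k l) (k (l + 1)) x

variable {k v : ℕ → ℝ} {n : ℕ}

theorem knots_mono (hk : ∀ l < n, k l < k (l + 1)) {i j : ℕ} (hij : i ≤ j) (hj : j ≤ n) :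
    k i ≤ k j := by
  induction j with
  | zero => rw [Nat.le_zero.1 hij]
  | succ j ih =>
    rcases Nat.eq_or_lt_of_le hij with e | e
    · rw [e]
    · exact (ih (by omega) (by omega)).trans (hk j (by omega)).le

theorem pl_eq (hk : ∀ l < n, k l < k (l + 1)) {j : ℕ} (hj : j < n) {x : ℝ} (h1 : k j ≤ x)
    (h2 : x ≤ k (j + 1)) :
    pl k v n x = v j + (v (j + 1) - v j) / (k (j + 1) - k j) * (x - k j) := by
  unfold pl
  have hlow : ∑ l ∈ range j, (v (l + 1) - v l) * ramp (k l) (k (l + 1)) x = v j - v 0 := by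
    rw [← sum_range_sub]
    refine sum_congr rfl fun l hl => ?_
    have hl' := mem_range.1 hl
    rw [ramp_of_ge (hk l (by omega)) ((knots_mono hk (show l + 1 ≤ j by omega) (by omega)).trans h1),
      mul_one]
  have hhigh : ∑ l ∈ Ico (j + 1) n, (v (l + 1) - v l) * ramp (k l) (k (l + 1)) x = 0 := by
    refine sum_eq_zero fun l hl => ?_
    have hl' := mem_Ico.1 hl
    rw [ramp_of_le (hk l hl'.2) (h2.trans (knots_mono hk hl'.1 hl'.2.le)), mul_zero]
  rw [← sum_range_add_sum_Ico _ (show j + 1 ≤ n by omega), sum_range_succ, hlow, hhigh,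
    ramp_of_mem (hk j hj) h1 h2]
  ring

theorem pl_left (hk : ∀ l < n, k l < k (l + 1)) {x : ℝ} (h : x ≤ k 0) : pl k v n x = v 0 := by
  unfold pl
  rw [sum_eq_zero fun l hl => ?_, add_zero]
  have hl' := mem_range.1 hl
  rw [ramp_of_le (hk l hl') (h.trans (knots_mono hk (Nat.zero_le l) hl'.le)), mul_zero]

theorem pl_right (hk : ∀ l < n, k l < k (l + 1)) {x : ℝ} (h : k n ≤ x) : pl k v n x = v n := by
  unfold pl
  rw [sum_congr rfl fun l hl => ?_, sum_range_sub]
  · ring
  · have hl' := mem_range.1 hl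
    rw [ramp_of_ge (hk l hl') ((knots_mono hk (show l + 1 ≤ n by omega) le_rfl).trans h), mul_one]

theorem exists_piece (hk : ∀ l < n, k l < k (l + 1)) {x : ℝ} (h1 : k 0 ≤ x) (h2 : x < k n) :
    ∃ j < n, k j ≤ x ∧ x < k (j + 1) := by
  classical
  have hex : ∃ j, x < k j := ⟨n, h2⟩
  obtain ⟨j, hj⟩ : ∃ j, Nat.find hex = j + 1 :=
    Nat.exists_eq_succ_of_ne_zero fun e => (not_lt.2 h1) (e ▸ Nat.find_spec hex)
  have hle : Nat.find hex ≤ n := Nat.find_le h2
  exact ⟨j, by omega, not_lt.1 (Nat.find_min hex (by omega)), hj ▸ Nat.find_spec hex⟩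

theorem pl_mem (hk : ∀ l < n, k l < k (l + 1)) {lo hi : ℝ}
    (hv : ∀ l ≤ n, lo ≤ v l ∧ v l ≤ hi) (x : ℝ) : lo ≤ pl k v n x ∧ pl k v n x ≤ hi := by
  rcases le_or_gt x (k 0) with h | h
  · rw [pl_left hk h]; exact hv 0 (Nat.zero_le n)
  rcases le_or_gt (k n) x with h' | h'
  · rw [pl_right hk h']; exact hv n le_rfl
  obtain ⟨j, hj, a, b⟩ := exists_piece hk h.le h'
  rw [pl_eq hk hj a b.le]
  have hd : 0 < k (j + 1) - k j := by linarith
  set θ := (x - k j) / (k (j + 1) - k j)
  have e : v j + (v (j + 1) - v j) / (k (j + 1) - k j) * (x - k j) =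
      (1 - θ) * v j + θ * v (j + 1) := by
    simp only [θ]; field_simp; ring
  have h0 : 0 ≤ θ := div_nonneg (by linarith) hd.le
  have h1 : θ ≤ 1 := (div_le_one hd).2 (by linarith)
  obtain ⟨p1, p2⟩ := hv j (by omega)
  obtain ⟨q1, q2⟩ := hv (j + 1) (by omega)
  rw [e]
  constructor <;> nlinarith [sub_nonneg.2 h1]

/-- A Lipschitz constant of `pl k v n`. -/
noncomputable def plLip (k v : ℕ → ℝ) (n : ℕ) : ℝ :=
  ∑ l ∈ range n, |v (l + 1) - v l| / (k (l + 1) - k l)

theorem pl_lip (hk : ∀ l < n, k l < k (l + 1)) (x y : ℝ) :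
    |pl k v n x - pl k v n y| ≤ plLip k v n * |x - y| := by
  unfold pl plLip
  rw [add_sub_add_left_eq_sub, ← sum_sub_distrib, sum_mul]
  refine (abs_sum_le_sum_abs _ _).trans (sum_le_sum fun l hl => ?_)
  rw [← mul_sub, abs_mul, div_mul_eq_mul_div, mul_div_assoc]
  exact mul_le_mul_of_nonneg_left (ramp_lip (hk l (mem_range.1 hl)) x y) (abs_nonneg _)

theorem continuous_pl : Continuous (pl k v n) := by
  unfold pl ramp; fun_prop

/-- The integral over one linear piece. -/
theorem integral_pl_piece (hk : ∀ l < n, k l < k (l + 1)) {j : ℕ} (hj : j < n) {x : ℝ}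
    (h1 : k j ≤ x) (h2 : x ≤ k (j + 1)) :
    ∫ y in (k j)..x, pl k v n y =
      v j * (x - k j) + (v (j + 1) - v j) / (k (j + 1) - k j) * ((x - k j) ^ 2 / 2) := by
  set s := (v (j + 1) - v j) / (k (j + 1) - k j)
  rw [intervalIntegral.integral_congr (g := fun y => v j + s * (y - k j)) fun y hy => ?_]
  · rw [intervalIntegral.integral_comp_sub_right (fun y => v j + s * y) (k j), sub_self,
      intervalIntegral.integral_add (Continuous.intervalIntegrable (by fun_prop) _ _)
        (Continuous.intervalIntegrable (by fun_prop) _ _),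
      intervalIntegral.integral_const, intervalIntegral.integral_const_mul, integral_id,
      smul_eq_mul]
    ring
  · rw [Set.uIcc_of_le h1] at hy
    exact pl_eq hk hj hy.1 (hy.2.trans h2)

end Vale.Agent.P110.UF
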