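import Mathlib
import Vale.Agent.P110.UF.Phase.Chirp
import Vale.Agent.P110.UF.Phase.PL

/-!
# P110 phase design: the time profile of a window

The window `[s₀, s₀ + D]` is cut into `M = H K` equal steps; the amplitude grows linearly from
`1 / H` to `1` over `H` steps and decreases in the same way at the end.
-/

open Finset

namespace Vale.Agent.P110.UF

/-- Parameters of the time profile of one window. -/
structure Win where
  η : ℝ
  ζ : ℝ
  H : ℕ
  K : ℕ
  s0 : ℝ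
  D : ℝ
  η_pos : 0 < η
  η_small : η ≤ 1 / 8
  ζ_pos : 0 < ζ
  ζ_small : ζ ≤ 1 / 8
  H_big : 576 ≤ H
  K_big : 3 ≤ K
  D_pos : 0 < D
  start : η ≤ s0
  stop : s0 + D ≤ 1 - 3 * η

namespace Win

variable (w : Win)

/-- The number of steps. -/
def M : ℕ := w.H * w.K

/-- The relative amplitude of a step. -/
noncomputable def q (l : ℕ) : ℝ :=
  min 1 (min (((l : ℝ) + 1) / w.H) (((w.M : ℝ) - l) / w.H))

/-- The duration of a step. -/
noncomputable def Δ : ℝ := w.D / w.M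

/-- The total of the squared relative amplitudes. -/
noncomputable def P : ℝ := ∑ l ∈ range w.M, w.q l ^ 2

/-- The speed in a step. -/
noncomputable def γ (l : ℕ) : ℝ := w.q l ^ 2 * (1 - 4 * w.ζ) / (w.Δ * w.P)

/-- The times of the knots. -/
noncomputable def S (l : ℕ) : ℝ := w.s0 + l * w.Δ

/-- The relative position at a knot. -/
noncomputable def Γ (l : ℕ) : ℝ := 2 * w.ζ + ∑ i ∈ range l, w.γ i * w.Δ

/-- The integral of the relative position up to a knot. -/
noncomputable def G (l : ℕ) : ℝ := ∑ i ∈ range l, (w.Γ i * w.Δ + w.γ i * w.Δ ^ 2 / 2)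

/-- The integral of the relative position up to time `s` in step `l`. -/
noncomputable def Gat (l : ℕ) (s : ℝ) : ℝ :=
  w.G l + w.Γ l * (s - w.S l) + w.γ l * (s - w.S l) ^ 2 / 2

theorem H_pos : (0 : ℝ) < w.H := by
  have := w.H_big
  exact_mod_cast (show 0 < w.H by omega)

theorem M_big : 3 * w.H ≤ w.M := by
  rw [M, Nat.mul_comm 3]; exact Nat.mul_le_mul_left _ w.K_big

theorem M_pos : (0 : ℝ) < w.M := by
  have := w.M_big; have := w.H_big
  exact_mod_cast (show 0 < w.M by omega)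

theorem Δ_pos : 0 < w.Δ := div_pos w.D_pos w.M_pos

theorem q_pos {l : ℕ} (hl : l < w.M) : 0 < w.q l := by
  have h : (l : ℝ) < w.M := Nat.cast_lt.2 hl
  exact lt_min one_pos (lt_min (div_pos (by positivity) w.H_pos)
    (div_pos (by linarith) w.H_pos))

theorem q_le_one (l : ℕ) : w.q l ≤ 1 := min_le_left _ _

theorem q_first : w.q 0 ≤ 1 / w.H :=
  (min_le_right _ _).trans ((min_le_left _ _).trans (le_of_eq (by simp)))

theorem q_last : w.q (w.M - 1) ≤ 1 / w.H := by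
  refine (min_le_right _ _).trans ((min_le_right _ _).trans (le_of_eq ?_))
  rw [Nat.cast_sub (by have := w.M_big; have := w.H_big; omega)]
  simp

theorem q_succ (l : ℕ) : |w.q (l + 1) - w.q l| ≤ 1 / w.H := by
  unfold q
  have hp : 0 ≤ 1 / (w.H : ℝ) := by positivity
  refine (abs_min_sub_min_le_max _ _ _ _).trans (max_le (by simp) ?_)
  refine (abs_min_sub_min_le_max _ _ _ _).trans (max_le ?_ ?_) <;>
    (rw [← sub_div, abs_div, abs_of_pos w.H_pos]; refine div_le_div_of_nonneg_right ?_ w.H_pos.le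
     rw [abs_le]; constructor <;> push_cast <;> linarith)

theorem P_ge : (w.M : ℝ) - 2 * w.H ≤ w.P := by
  have h1 : ∀ l ∈ Ico w.H (w.M - w.H), (1 : ℝ) ≤ w.q l ^ 2 := by
    intro l hl
    obtain ⟨a, b⟩ := mem_Ico.1 hl
    have hq : w.q l = 1 := by
      refine min_eq_left (le_min ?_ ?_) <;> rw [le_div_iff₀ w.H_pos]
      · have : (w.H : ℝ) ≤ l := Nat.cast_le.2 a
        linarith
      · have : ((l + w.H : ℕ) : ℝ) ≤ (w.M : ℝ) := Nat.cast_le.2 (by omega)
        push_cast at this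
        linarith
    rw [hq, one_pow]
  have h2 := card_nsmul_le_sum _ _ _ h1
  have h3 : ∑ l ∈ Ico w.H (w.M - w.H), w.q l ^ 2 ≤ w.P :=
    sum_le_sum_of_subset_of_nonneg (fun l hl => mem_range.2 (by have := (mem_Ico.1 hl).2; omega))
      fun l _ _ => sq_nonneg _
  rw [Nat.card_Ico, nsmul_eq_mul, mul_one, Nat.cast_sub (by have := w.M_big; omega),
    Nat.cast_sub (by have := w.M_big; omega)] at h2
  linarith

theorem P_pos : 0 < w.P := by
  have h1 : ((3 * w.H : ℕ) : ℝ) ≤ (w.M : ℝ) := Nat.cast_le.2 w.M_big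
  push_cast at h1
  linarith [w.P_ge, w.H_pos]

theorem γ_pos {l : ℕ} (hl : l < w.M) : 0 < w.γ l := by
  have h1 : (0 : ℝ) < 1 - 4 * w.ζ := by linarith [w.ζ_small]
  exact div_pos (mul_pos (pow_pos (w.q_pos hl) 2) h1) (mul_pos w.Δ_pos w.P_pos)

theorem Γ_succ (l : ℕ) : w.Γ (l + 1) = w.Γ l + w.γ l * w.Δ := by
  unfold Γ; rw [sum_range_succ]; ring

theorem S_succ (l : ℕ) : w.S (l + 1) = w.S l + w.Δ := by
  unfold S; push_cast; ring

theorem G_succ (l : ℕ) : w.G (l + 1) = w.G l + (w.Γ l * w.Δ + w.γ l * w.Δ ^ 2 / 2) := by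
  unfold G; rw [sum_range_succ]

theorem S_zero : w.S 0 = w.s0 := by simp [S]

theorem S_M : w.S w.M = w.s0 + w.D := by
  rw [S, Δ, mul_div_cancel₀ _ w.M_pos.ne']

theorem Γ_zero : w.Γ 0 = 2 * w.ζ := by simp [Γ]

theorem Γ_M : w.Γ w.M = 1 - 2 * w.ζ := by
  unfold Γ γ
  have := w.P_pos
  have := w.Δ_pos
  rw [sum_congr rfl fun i _ => show w.q i ^ 2 * (1 - 4 * w.ζ) / (w.Δ * w.P) * w.Δ =
    w.q i ^ 2 * ((1 - 4 * w.ζ) / w.P) by field_simp, ← sum_mul]
  change 2 * w.ζ + w.P * _ = _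
  field_simp
  ring

theorem G_zero : w.G 0 = 0 := by simp [G]

theorem Gat_succ (l : ℕ) : w.Gat l (w.S (l + 1)) = w.G (l + 1) := by
  rw [Gat, G_succ, S_succ]; ring

theorem S_le {i l : ℕ} (h : i ≤ l) : w.S i ≤ w.S l := by
  unfold S
  have := w.Δ_pos
  have : (i : ℝ) ≤ l := Nat.cast_le.2 h
  nlinarith

theorem S_mem {l : ℕ} (hl : l ≤ w.M) : w.η ≤ w.S l ∧ w.S l ≤ 1 - 3 * w.η := by
  have h1 := w.S_le (Nat.zero_le l)
  have h2 := w.S_le hl
  rw [S_zero] at h1
  rw [S_M] at h2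
  exact ⟨by linarith [w.start], by linarith [w.stop]⟩

theorem exists_step {s : ℝ} (h1 : w.s0 ≤ s) (h2 : s < w.s0 + w.D) :
    ∃ l < w.M, w.S l ≤ s ∧ s < w.S (l + 1) :=
  exists_piece (k := w.S) (n := w.M)
    (fun l _ => by rw [S_succ]; linarith [w.Δ_pos]) (by rwa [S_zero]) (by rwa [S_M])

end Win

end Vale.Agent.P110.UF
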