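import Mathlib
import Vale.Agent.P110.UF.Phase.Window

/-!
# P110 phase design: one upward swept interval

On `[A, A + Λ]` the group delay descends from `Top` to the start of the window, runs through the
window along the profile and returns to `Top`.
-/

open Finset MeasureTheory

namespace Vale.Agent.P110.UF

/-- The data of one interval. -/
structure Prof where
  w : Win
  A : ℝ
  Λ : ℝ
  h₁ : ℝ
  h₂ : ℝ
  Λ_pos : 0 < Λ
  h₁_mem : 1 - 2 * w.η ≤ h₁ ∧ h₁ ≤ 1 - 3 / 2 * w.η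
  h₂_mem : 1 - 2 * w.η ≤ h₂ ∧ h₂ ≤ 1 - 3 / 2 * w.η

namespace Prof

variable (p : Prof)

/-- The last index of a knot. -/
def n : ℕ := p.w.M + 4

/-- The knots. -/
noncomputable def kn (j : ℕ) : ℝ :=
  if j = 0 then p.A else if j = 1 then p.A + p.w.ζ * p.Λ
  else if j ≤ p.w.M + 2 then p.A + p.Λ * p.w.Γ (j - 2)
  else if j = p.w.M + 3 then p.A + (1 - p.w.ζ) * p.Λ else p.A + p.Λ

/-- The values at the knots. -/
noncomputable def va (j : ℕ) : ℝ :=
  if j = 0 then 1 - p.w.η else if j = 1 then p.h₁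
  else if j ≤ p.w.M + 2 then p.w.S (j - 2)
  else if j = p.w.M + 3 then p.h₂ else 1 - p.w.η

/-- The group delay. -/
noncomputable def tau (x : ℝ) : ℝ := pl p.kn p.va p.n x

/-- The phase, normalised at the left end. -/
noncomputable def psi (x : ℝ) : ℝ := ∫ y in p.A..x, p.tau y

theorem kn_zero : p.kn 0 = p.A := rfl

theorem kn_one : p.kn 1 = p.A + p.w.ζ * p.Λ := rfl

theorem kn_mid {l : ℕ} (hl : l ≤ p.w.M) : p.kn (l + 2) = p.A + p.Λ * p.w.Γ l := by
  simp [kn, show l + 2 ≤ p.w.M + 2 by omega]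

theorem kn_pre : p.kn (p.w.M + 3) = p.A + (1 - p.w.ζ) * p.Λ := by
  simp [kn, show ¬p.w.M + 3 ≤ p.w.M + 2 by omega]

theorem kn_last : p.kn p.n = p.A + p.Λ := by
  simp [kn, n, show ¬p.w.M + 4 ≤ p.w.M + 2 by omega]

theorem va_zero : p.va 0 = 1 - p.w.η := rfl

theorem va_one : p.va 1 = p.h₁ := rfl

theorem va_mid {l : ℕ} (hl : l ≤ p.w.M) : p.va (l + 2) = p.w.S l := by
  simp [va, show l + 2 ≤ p.w.M + 2 by omega]

theorem va_pre : p.va (p.w.M + 3) = p.h₂ := by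
  simp [va, show ¬p.w.M + 3 ≤ p.w.M + 2 by omega]

theorem va_last : p.va p.n = 1 - p.w.η := by
  simp [va, n, show ¬p.w.M + 4 ≤ p.w.M + 2 by omega]

theorem kn_lt : ∀ j < p.n, p.kn j < p.kn (j + 1) := by
  intro j hj
  unfold n at hj
  have hζ := p.w.ζ_pos
  have hζ' := p.w.ζ_small
  have hL := p.Λ_pos
  rcases j with _ | _ | l
  · rw [kn_zero, zero_add, kn_one]; nlinarith
  · rw [kn_one, show 0 + 1 + 1 = 0 + 2 by rfl, kn_mid p (Nat.zero_le _), Win.Γ_zero]; nlinarith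
  rcases lt_trichotomy l p.w.M with h | rfl | h
  · rw [show l + 1 + 1 = l + 2 by rfl, show l + 2 + 1 = (l + 1) + 2 by rfl, kn_mid p h.le,
      kn_mid p h, Win.Γ_succ]
    nlinarith [mul_pos (mul_pos hL (p.w.γ_pos h)) p.w.Δ_pos]
  · rw [show p.w.M + 1 + 1 = p.w.M + 2 by rfl, show p.w.M + 2 + 1 = p.w.M + 3 by rfl,
      kn_mid p le_rfl, Win.Γ_M, kn_pre]
    nlinarith
  · obtain rfl : l = p.w.M + 1 := by omega
    rw [show p.w.M + 1 + 1 + 1 = p.w.M + 3 by rfl, kn_pre, show p.w.M + 3 + 1 = p.n from rfl,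
      kn_last]
    nlinarith

theorem va_mem {j : ℕ} (hj : j ≤ p.n) : p.w.η ≤ p.va j ∧ p.va j ≤ 1 - p.w.η := by
  unfold n at hj
  have hη := p.w.η_pos
  have hη' := p.w.η_small
  obtain ⟨a1, a2⟩ := p.h₁_mem
  obtain ⟨b1, b2⟩ := p.h₂_mem
  rcases j with _ | _ | l
  · rw [va_zero]; constructor <;> linarith
  · rw [va_one]; constructor <;> linarith
  rcases le_or_gt l p.w.M with h | h
  · rw [show l + 1 + 1 = l + 2 by rfl, va_mid p h]
    obtain ⟨c, d⟩ := p.w.S_mem h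
    exact ⟨c, by linarith⟩
  · rcases eq_or_ne l (p.w.M + 1) with rfl | h'
    · rw [show p.w.M + 1 + 1 + 1 = p.w.M + 3 by rfl, va_pre]; constructor <;> linarith
    · obtain rfl : l = p.w.M + 2 := by omega
      rw [show p.w.M + 2 + 1 + 1 = p.n from rfl, va_last]; constructor <;> linarith

theorem continuous_tau : Continuous p.tau := continuous_pl

theorem continuous_psi : Continuous p.psi :=
  intervalIntegral.continuous_primitive (fun a b => p.continuous_tau.intervalIntegrable a b) _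

theorem psi_piece {j : ℕ} (hj : j < p.n) {x : ℝ} (h1 : p.kn j ≤ x) (h2 : x ≤ p.kn (j + 1)) :
    p.psi x = p.psi (p.kn j) + p.va j * (x - p.kn j) +
      (p.va (j + 1) - p.va j) / (p.kn (j + 1) - p.kn j) * ((x - p.kn j) ^ 2 / 2) := by
  unfold psi tau
  rw [← intervalIntegral.integral_add_adjacent_intervals
    (continuous_pl.intervalIntegrable p.A (p.kn j)) (continuous_pl.intervalIntegrable (p.kn j) x),
    integral_pl_piece p.kn_lt hj h1 h2]
  ring

theorem psi_one : p.psi (p.kn 1) = p.w.ζ * p.Λ * ((1 - p.w.η + p.h₁) / 2) := by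
  have h0 : p.psi (p.kn 0) = 0 := intervalIntegral.integral_same
  have hp : 0 < p.w.ζ * p.Λ := mul_pos p.w.ζ_pos p.Λ_pos
  rw [psi_piece p (show 0 < p.n by unfold n; omega) (p.kn_lt 0 (by unfold n; omega)).le le_rfl, h0,
    va_zero, va_one, kn_zero, kn_one, show p.A + p.w.ζ * p.Λ - p.A = p.w.ζ * p.Λ by ring]
  field_simp
  ring

/-- The phase at the start of the chain. -/
theorem psi_start : p.psi (p.kn 2) =
    p.w.ζ * p.Λ * ((1 - p.w.η + p.w.s0) / 2 + p.h₁) := by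
  have hp : 0 < p.w.ζ * p.Λ := mul_pos p.w.ζ_pos p.Λ_pos
  rw [psi_piece p (show 1 < p.n by unfold n; omega) (p.kn_lt 1 (by unfold n; omega)).le le_rfl,
    psi_one, va_one, show (1 : ℕ) + 1 = 0 + 2 by rfl, va_mid p (Nat.zero_le _), Win.S_zero, kn_one,
    kn_mid p (Nat.zero_le _), Win.Γ_zero,
    show p.A + p.Λ * (2 * p.w.ζ) - (p.A + p.w.ζ * p.Λ) = p.w.ζ * p.Λ by ring]
  field_simp
  ring

/-- The phase at the knots of the chain. -/
theorem psi_mid {l : ℕ} (hl : l ≤ p.w.M) :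
    p.psi (p.kn (l + 2)) = p.psi (p.kn 2) - p.Λ * p.w.Γ 0 * p.w.S 0 +
      p.Λ * (p.w.Γ l * p.w.S l - p.w.G l) := by
  induction l with
  | zero => rw [Win.G_zero]; ring
  | succ l ih =>
    have hl' : l < p.w.M := hl
    have hj : l + 2 < p.n := by unfold n; omega
    have hd : p.Λ * (p.w.γ l * p.w.Δ) ≠ 0 :=
      (mul_pos p.Λ_pos (mul_pos (p.w.γ_pos hl') p.w.Δ_pos)).ne'
    rw [show l + 1 + 2 = l + 2 + 1 by rfl, psi_piece p hj (p.kn_lt _ hj).le le_rfl,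
      ih hl'.le, show l + 2 + 1 = (l + 1) + 2 by rfl, va_mid p hl'.le, va_mid p hl,
      kn_mid p hl'.le, kn_mid p hl, Win.Γ_succ, Win.S_succ, Win.G_succ]
    rw [show p.A + p.Λ * (p.w.Γ l + p.w.γ l * p.w.Δ) - (p.A + p.Λ * p.w.Γ l) =
      p.Λ * (p.w.γ l * p.w.Δ) by ring]
    field_simp
    ring

/-- The phase at the right end. -/
theorem psi_end : p.psi (p.A + p.Λ) = p.psi (p.kn (p.w.M + 2)) +
    p.w.ζ * p.Λ * ((1 - p.w.η + (p.w.s0 + p.w.D)) / 2 + p.h₂) := by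
  have hp : 0 < p.w.ζ * p.Λ := mul_pos p.w.ζ_pos p.Λ_pos
  have h1 : p.w.M + 2 < p.n := by unfold n; omega
  have h2 : p.w.M + 3 < p.n := by unfold n; omega
  rw [← kn_last, show p.n = p.w.M + 3 + 1 from rfl, psi_piece p h2 (p.kn_lt _ h2).le le_rfl,
    show p.w.M + 3 = p.w.M + 2 + 1 by rfl, psi_piece p h1 (p.kn_lt _ h1).le le_rfl]
  rw [show p.w.M + 2 + 1 + 1 = p.n from rfl, va_last, show p.w.M + 2 + 1 = p.w.M + 3 by rfl,
    va_pre, va_mid p le_rfl, kn_mid p le_rfl, kn_pre, kn_last, Win.S_M, Win.Γ_M,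
    show p.A + (1 - p.w.ζ) * p.Λ - (p.A + p.Λ * (1 - 2 * p.w.ζ)) = p.w.ζ * p.Λ by ring,
    show p.A + p.Λ - (p.A + (1 - p.w.ζ) * p.Λ) = p.w.ζ * p.Λ by ring]
  field_simp
  ring

end Prof

end Vale.Agent.P110.UF
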