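import Mathlib
import Vale.Agent.P110.UF.Phase.Profile

/-!
# P110 phase design: the pieces of one interval and their stationary points
-/

open Finset MeasureTheory

namespace Vale.Agent.P110.UF

namespace Prof

variable (p : Prof)

/-- The slope of piece `j`. -/
noncomputable def slope (j : ℕ) : ℝ := (p.va (j + 1) - p.va j) / (p.kn (j + 1) - p.kn j)

/-- The coefficient integral of piece `j`, times `√N`. -/
noncomputable def piece (N : ℕ) (t : ℝ) (j : ℕ) : ℂ :=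
  (Real.sqrt N : ℂ) * ∫ x in (p.kn j)..(p.kn (j + 1)), ex (N * p.psi x - t * x)

/-- The coefficient integral over the interval, times `√N`. -/
noncomputable def coef (N : ℕ) (t : ℝ) : ℂ :=
  (Real.sqrt N : ℂ) * ∫ x in p.A..(p.A + p.Λ), ex (N * p.psi x - t * x)

theorem coef_eq_sum (N : ℕ) (t : ℝ) : p.coef N t = ∑ j ∈ range p.n, p.piece N t j := by
  unfold coef piece
  rw [← mul_sum, intervalIntegral.sum_integral_adjacent_intervals fun j _ =>
    intInt_ex (by have := p.continuous_psi; fun_prop) _ _, kn_zero, kn_last]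

/-- The phase at the stationary point of piece `j`. -/
noncomputable def statPhase (N : ℕ) (t : ℝ) (j : ℕ) : ℝ :=
  N * p.psi (p.kn j) - t * p.kn j - (N * p.va j - t) ^ 2 / (2 * (N * p.slope j))

theorem piece_eq {N : ℕ} (hN : 0 < N) (t : ℝ) {j : ℕ} (hj : j < p.n) (hs : p.slope j ≠ 0) :
    p.piece N t j = (Real.sqrt N : ℂ) * (ex (p.statPhase N t j) *
      chirp (N * p.slope j) ((p.va j - t / N) / p.slope j)
        ((p.va (j + 1) - t / N) / p.slope j)) := by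
  have hN' : (N : ℝ) ≠ 0 := Nat.cast_ne_zero.2 hN.ne'
  have hk := p.kn_lt j hj
  unfold piece
  congr 1
  rw [intervalIntegral.integral_congr (g := fun x => ex ((N * p.psi (p.kn j) - t * p.kn j) +
    (N * p.va j - t) * (x - p.kn j) + (N * p.slope j) * (x - p.kn j) ^ 2 / 2)) fun x hx => ?_,
    integral_quad (mul_ne_zero hN' hs)]
  · have hd : p.kn (j + 1) - p.kn j ≠ 0 := sub_ne_zero.2 hk.ne'
    have hv : p.va (j + 1) = p.va j + p.slope j * (p.kn (j + 1) - p.kn j) := by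
      rw [slope, div_mul_cancel₀ _ hd]; ring
    rw [statPhase, hv]
    congr 2 <;> field_simp <;> ring
  · rw [Set.uIcc_of_le hk.le] at hx
    change ex _ = ex _
    rw [p.psi_piece hj hx.1 hx.2]
    congr 1
    rw [slope]
    ring

theorem piece_crude {C : ℝ} (hC : FresnelBound C) {N : ℕ} (hN : 0 < N) (t : ℝ) {j : ℕ}
    (hj : j < p.n) (hs : p.slope j ≠ 0) :
    ‖p.piece N t j‖ ≤ C / Real.sqrt |p.slope j| := by
  have hN' : (0 : ℝ) < N := Nat.cast_pos.2 hN
  rw [p.piece_eq hN t hj hs, norm_mul, norm_mul, norm_ex, one_mul, Complex.norm_real,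
    Real.norm_of_nonneg (Real.sqrt_nonneg _)]
  refine (mul_le_mul_of_nonneg_left (hC.crude _ (mul_ne_zero hN'.ne' hs) _ _)
    (Real.sqrt_nonneg _)).trans (le_of_eq ?_)
  rw [abs_mul, abs_of_pos hN', Real.sqrt_mul hN'.le]
  field_simp

theorem piece_far {C : ℝ} (hC : FresnelBound C) {N : ℕ} (hN : 0 < N) (t : ℝ) {j : ℕ}
    (hj : j < p.n) (hs : p.slope j ≠ 0) {r : ℝ} (hr : 0 < r)
    (h : (r ≤ p.va j - t / N ∧ r ≤ p.va (j + 1) - t / N) ∨
      (p.va j - t / N ≤ -r ∧ p.va (j + 1) - t / N ≤ -r)) :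
    ‖p.piece N t j‖ ≤ C / (Real.sqrt N * r) := by
  have hN' : (0 : ℝ) < N := Nat.cast_pos.2 hN
  have hσ := abs_pos.2 hs
  rw [p.piece_eq hN t hj hs, norm_mul, norm_mul, norm_ex, one_mul, Complex.norm_real,
    Real.norm_of_nonneg (Real.sqrt_nonneg _)]
  have hR : 0 < r / |p.slope j| := div_pos hr hσ
  have e : C / (|(N : ℝ) * p.slope j| * (r / |p.slope j|)) * Real.sqrt N =
      C / (Real.sqrt N * r) := by
    rw [abs_mul, abs_of_pos hN']
    have hsq := Real.mul_self_sqrt hN'.le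
    have : 0 < Real.sqrt N := Real.sqrt_pos.2 hN'
    field_simp
    rw [sq, hsq]
  rw [← e, mul_comm (Real.sqrt N)]
  refine mul_le_mul_of_nonneg_right ?_ (Real.sqrt_nonneg _)
  have hσ' := mul_ne_zero hN'.ne' hs
  rcases lt_or_gt_of_ne hs with hneg | hpos
  · rw [abs_of_neg hneg] at hR ⊢
    rcases h with ⟨a, b⟩ | ⟨a, b⟩
    · refine hC.left _ hσ' _ _ _ hR ?_ ?_ <;>
      · rw [div_le_iff_of_neg hneg, div_neg, neg_neg, div_mul_cancel₀ _ hs]
        assumption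
    · refine hC.right _ hσ' _ _ _ hR ?_ ?_ <;>
      · rw [le_div_iff_of_neg hneg, div_neg, neg_mul, div_mul_cancel₀ _ hs]
        assumption
  · rw [abs_of_pos hpos] at hR ⊢
    rcases h with ⟨a, b⟩ | ⟨a, b⟩
    · exact hC.right _ hσ' _ _ _ hR (div_le_div_of_nonneg_right a hpos.le)
        (div_le_div_of_nonneg_right b hpos.le)
    · refine hC.left _ hσ' _ _ _ hR ?_ ?_ <;>
      · rw [← neg_div]
        exact div_le_div_of_nonneg_right (by assumption) hpos.le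

theorem slope_mid {l : ℕ} (hl : l < p.w.M) : p.slope (l + 2) = 1 / (p.Λ * p.w.γ l) := by
  have := p.w.Δ_pos
  have := p.w.γ_pos hl
  have := p.Λ_pos
  rw [slope, show l + 2 + 1 = (l + 1) + 2 by rfl, va_mid p hl, va_mid p hl.le, kn_mid p hl,
    kn_mid p hl.le, Win.S_succ, Win.Γ_succ, add_sub_cancel_left,
    show p.A + p.Λ * (p.w.Γ l + p.w.γ l * p.w.Δ) - (p.A + p.Λ * p.w.Γ l) =
      p.Λ * p.w.γ l * p.w.Δ by ring]
  field_simp

theorem slope_mid_pos {l : ℕ} (hl : l < p.w.M) : 0 < p.slope (l + 2) := by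
  rw [p.slope_mid hl]; exact one_div_pos.2 (mul_pos p.Λ_pos (p.w.γ_pos hl))

/-- The margins are steep. -/
theorem margin_slope {j : ℕ} (hj : j < p.n) (hm : j < 2 ∨ p.w.M + 2 ≤ j) :
    p.w.η / 2 / (p.w.ζ * p.Λ) ≤ |p.slope j| := by
  unfold n at hj
  have hd : 0 < p.w.ζ * p.Λ := mul_pos p.w.ζ_pos p.Λ_pos
  have hη := p.w.η_pos
  obtain ⟨a1, a2⟩ := p.h₁_mem
  obtain ⟨b1, b2⟩ := p.h₂_mem
  have hs0 := (p.w.S_mem (Nat.zero_le _)).2
  have hsM := (p.w.S_mem le_rfl).2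
  rcases j with _ | _ | l
  · rw [slope, zero_add, va_one, va_zero, kn_one, kn_zero,
      show p.A + p.w.ζ * p.Λ - p.A = p.w.ζ * p.Λ by ring, abs_div, abs_of_pos hd]
    exact div_le_div_of_nonneg_right (by rw [abs_sub_comm]; exact le_abs.2 (Or.inl (by linarith)))
      hd.le
  · rw [slope, show 0 + 1 + 1 = 0 + 2 by rfl, va_mid p (Nat.zero_le _), kn_mid p (Nat.zero_le _),
      Win.Γ_zero, zero_add, va_one, kn_one,
      show p.A + p.Λ * (2 * p.w.ζ) - (p.A + p.w.ζ * p.Λ) = p.w.ζ * p.Λ by ring, abs_div,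
      abs_of_pos hd]
    exact div_le_div_of_nonneg_right (by rw [abs_sub_comm]; exact le_abs.2 (Or.inl (by linarith)))
      hd.le
  rcases hm with h | h
  · omega
  rcases eq_or_ne l p.w.M with rfl | h'
  · rw [slope, show p.w.M + 1 + 1 + 1 = p.w.M + 3 by rfl, show p.w.M + 1 + 1 = p.w.M + 2 by rfl,
      va_pre, va_mid p le_rfl, kn_pre, kn_mid p le_rfl, Win.Γ_M,
      show p.A + (1 - p.w.ζ) * p.Λ - (p.A + p.Λ * (1 - 2 * p.w.ζ)) = p.w.ζ * p.Λ by ring, abs_div,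
      abs_of_pos hd]
    exact div_le_div_of_nonneg_right (le_abs.2 (Or.inl (by linarith))) hd.le
  · obtain rfl : l = p.w.M + 1 := by omega
    rw [slope, show p.w.M + 1 + 1 + 1 + 1 = p.n from rfl,
      show p.w.M + 1 + 1 + 1 = p.w.M + 3 by rfl, va_last, va_pre, kn_last, kn_pre,
      show p.A + p.Λ - (p.A + (1 - p.w.ζ) * p.Λ) = p.w.ζ * p.Λ by ring, abs_div, abs_of_pos hd]
    exact div_le_div_of_nonneg_right (le_abs.2 (Or.inl (by linarith))) hd.le

theorem margin_piece {C : ℝ} (hC : FresnelBound C) {N : ℕ} (hN : 0 < N) (t : ℝ) {j : ℕ}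
    (hj : j < p.n) (hm : j < 2 ∨ p.w.M + 2 ≤ j) :
    ‖p.piece N t j‖ ≤ C * Real.sqrt (2 * p.w.ζ * p.Λ / p.w.η) := by
  have h := p.margin_slope hj hm
  have hpos : 0 < p.w.η / 2 / (p.w.ζ * p.Λ) :=
    div_pos (half_pos p.w.η_pos) (mul_pos p.w.ζ_pos p.Λ_pos)
  refine (p.piece_crude hC hN t hj (abs_pos.1 (hpos.trans_le h))).trans ?_
  refine (div_le_div_of_nonneg_left hC.pos.le (Real.sqrt_pos.2 hpos)
    (Real.sqrt_le_sqrt h)).trans (le_of_eq ?_)
  rw [div_eq_mul_inv, ← Real.sqrt_inv, inv_div]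
  congr 2
  field_simp

/-- Crude bound on a step of the chain. -/
theorem mid_crude {C : ℝ} (hC : FresnelBound C) {N : ℕ} (hN : 0 < N) (t : ℝ) {l : ℕ}
    (hl : l < p.w.M) : ‖p.piece N t (l + 2)‖ ≤ C * Real.sqrt (p.Λ * p.w.γ l) := by
  have h := p.slope_mid_pos hl
  refine (p.piece_crude hC hN t (by unfold n; omega) h.ne').trans (le_of_eq ?_)
  rw [abs_of_pos h, p.slope_mid hl, div_eq_mul_inv, ← Real.sqrt_inv, one_div, inv_inv]

/-- Far steps of the chain are negligible. -/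
theorem mid_far {C : ℝ} (hC : FresnelBound C) {N : ℕ} (hN : 0 < N) (t : ℝ) {l : ℕ}
    (hl : l < p.w.M) {r : ℝ} (hr : 0 < r)
    (h : t / N + r ≤ p.w.S l ∨ p.w.S (l + 1) ≤ t / N - r) :
    ‖p.piece N t (l + 2)‖ ≤ C / (Real.sqrt N * r) := by
  refine p.piece_far hC hN t (by unfold n; omega) (p.slope_mid_pos hl).ne' hr ?_
  rw [show l + 2 + 1 = (l + 1) + 2 by rfl, va_mid p hl, va_mid p hl.le]
  have := p.w.Δ_pos
  rw [Win.S_succ] at h ⊢
  rcases h with h | h
  · exact Or.inl ⟨by linarith, by linarith⟩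
  · exact Or.inr ⟨by linarith, by linarith⟩

end Prof

end Vale.Agent.P110.UF
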