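import Mathlib
import Vale.Agent.P110.UF.Phase.Pieces

/-!
# P110 phase design: the estimate for one interval

Inside the window the coefficient is one chirp of amplitude `√(Λ γ)`; outside it is negligible.
-/

open Finset

namespace Vale.Agent.P110.UF

namespace Prof

variable (p : Prof)

/-- The constant in the phase of the chain. -/
noncomputable def phase0 (N : ℕ) : ℝ :=
  N * p.psi (p.kn 2) - p.Λ * N * p.w.Γ 0 * p.w.S 0

/-- The largest amplitude in the window. -/
noncomputable def amax : ℝ := Real.sqrt (p.Λ * (1 - 4 * p.w.ζ) / (p.w.Δ * p.w.P))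

/-- The step containing the time `s`. -/
noncomputable def stepAt (s : ℝ) : ℕ := ⌊(s - p.w.s0) / p.w.Δ⌋₊

/-- The main term. -/
noncomputable def main (N : ℕ) (t : ℝ) : ℂ :=
  if p.w.s0 ≤ t / N ∧ t / N < p.w.s0 + p.w.D then
    ((p.amax * p.w.q (p.stepAt (t / N)) : ℝ) : ℂ) * ex (1 / 8) *
      ex (p.phase0 N - (t * p.A + p.Λ * N * p.w.Gat (p.stepAt (t / N)) (t / N)))
  else 0

/-- The error in the estimate, with junction parameter `U`. -/
noncomputable def err (C U : ℝ) (N : ℕ) : ℝ :=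
  4 * C * Real.sqrt (2 * p.w.ζ * p.Λ / p.w.η) +
    p.amax * ((16 * C + 2) / Real.sqrt p.w.H + 20 * C / U + 48 * U ^ 3 / Real.sqrt p.w.H) +
    4 * p.w.M * C / (Real.sqrt N * p.w.Δ)

end Prof

/-- The coefficient of one interval is its main term up to `err`. -/
def EstimateStmt : Prop :=
  ∀ C U : ℝ, FresnelBound C → 0 < U → ∀ (p : Prof) (N : ℕ), 0 < N →
    8 * U * Real.sqrt p.w.H ≤ Real.sqrt N * p.amax * p.w.Δ →
    ∀ t : ℝ, ‖p.coef N t - p.main N t‖ ≤ p.err C U N

end Vale.Agent.P110.UF
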