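import Mathlib
import Vale.Agent.P110.UF.Phase.Defs

/-!
# P110: gluing delays given on the intervals of a tiling of the half circle

`g i` is the group delay on `[st i / L, (st i + len i) / L]`; it takes the same value `top` at both
ends and `N` times its integral over the interval is an integer.
-/

open Finset

namespace Vale.Agent.P110.UF

/-- The glued phase exists and its coefficients are twice the real parts of the interval sums. -/
def GlueStmt : Prop :=
  ∀ (L I : ℕ) (st len : Fin I → ℕ), 0 < L → 2 ∣ L → (∀ i, 0 < len i) →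
    (∀ i, 2 * (st i + len i) ≤ L) →
    (∀ a : ℕ, 2 * a < L → ∃! i, st i ≤ a ∧ a < st i + len i) →
    ∀ (η M top : ℝ) (N : ℕ) (g : Fin I → ℝ → ℝ), η ≤ top → top ≤ 1 - η → 0 ≤ M →
      (∀ i x y, |g i x - g i y| ≤ M * |x - y|) →
      (∀ i x, η ≤ g i x ∧ g i x ≤ 1 - η) →
      (∀ i, g i ((st i : ℝ) / L) = top ∧ g i (((st i : ℝ) + len i) / L) = top) →
      (∀ i, ∃ z : ℤ, (N : ℝ) * (∫ x in ((st i : ℝ) / L)..(((st i : ℝ) + len i) / L), g i x) = z) →
      ∃ Φ τ : ℝ → ℝ, Phase η ((I + 1 : ℕ) * M) N Φ τ ∧ ∀ t : ℤ,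
        phaseCoef N Φ t = Real.sqrt N * (2 * (∑ i, ∫ x in
          ((st i : ℝ) / L)..(((st i : ℝ) + len i) / L),
            ex (N * (∫ y in ((st i : ℝ) / L)..x, g i y) - t * x)).re)

end Vale.Agent.P110.UF
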