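import Mathlib
import Vale.Agent.P110.UF.Phase.EstimateDefs
import Vale.Agent.P110.UF.Phase.GlueDefs

/-!
# P110 phase design: windows and profiles attached to a tiling

Window `j` of the tiling becomes the time interval `[η + θ (dur 0 + ... + dur (j - 1)), + θ dur j]`
with `θ = (1 - 4 η) / (1 + ε)`; every interval of the tiling gets a profile on its window.
-/

open Finset

namespace Vale.Agent.P110.UF.Design

/-- A real number on the circle representing the direction of `c`. -/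
noncomputable def dir (c : ℂ) : ℝ := c.arg / (2 * Real.pi)

theorem norm_mul_ex_dir (c : ℂ) : (‖c‖ : ℂ) * ex (dir c) = c := by
  rw [ex, dir, mul_div_cancel₀ _ (by positivity)]
  exact Complex.norm_mul_exp_arg_mul_I c

theorem exists_shift {a lo hi : ℝ} (ha : 0 < a) (h : 1 ≤ a * (hi - lo)) (c : ℝ) :
    ∃ x, lo ≤ x ∧ x ≤ hi ∧ ∃ z : ℤ, c + a * x = z := by
  refine ⟨(⌈c + a * lo⌉ - c) / a, ?_, ?_, ⌈c + a * lo⌉, ?_⟩
  · rw [le_div_iff₀ ha]; linarith [Int.le_ceil (c + a * lo), mul_comm a lo]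
  · rw [div_le_iff₀ ha]; nlinarith [Int.ceil_lt_add_one (c + a * lo)]
  · field_simp; ring

/-- The parameters of the design on a tiling. -/
structure Plan (ε : ℝ) where
  T : Tiling ε
  eps_nonneg : 0 ≤ ε
  η : ℝ
  ζ : ℝ
  H : ℕ
  K : ℕ
  η_pos : 0 < η
  η_small : η ≤ 1 / 8
  ζ_pos : 0 < ζ
  ζ_small : ζ ≤ 1 / 8
  H_big : 576 ≤ H
  K_big : 3 ≤ K

namespace Plan

variable {ε : ℝ} (d : Plan ε)

/-- The time scale. -/
noncomputable def θ : ℝ := (1 - 4 * d.η) / (1 + ε)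

theorem θ_pos : 0 < d.θ :=
  div_pos (by linarith [d.η_small]) (by linarith [d.eps_nonneg])

/-- The start of window `j`. -/
noncomputable def start (j : Fin d.T.J) : ℝ :=
  d.η + d.θ * ∑ k ∈ univ.filter (fun k => k < j), d.T.dur k

theorem start_ge (j : Fin d.T.J) : d.η ≤ d.start j :=
  le_add_of_nonneg_right (mul_nonneg d.θ_pos.le (sum_nonneg fun k _ => (d.T.dur_pos k).le))

theorem start_add (j : Fin d.T.J) : d.start j + d.θ * d.T.dur j =
    d.η + d.θ * ∑ k ∈ univ.filter (fun k => k ≤ j), d.T.dur k := by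
  have : univ.filter (fun k : Fin d.T.J => k ≤ j) =
      insert j (univ.filter fun k => k < j) := by
    ext k; simp [le_iff_eq_or_lt]
  rw [start, this, sum_insert (by simp)]
  ring

theorem window_le {i j : Fin d.T.J} (h : i < j) : d.start i + d.θ * d.T.dur i ≤ d.start j := by
  rw [start_add, start]
  refine add_le_add le_rfl (mul_le_mul_of_nonneg_left ?_ d.θ_pos.le)
  refine sum_le_sum_of_subset_of_nonneg ?_ fun k _ _ => (d.T.dur_pos k).le
  intro k hk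
  simp only [mem_filter, mem_univ, true_and] at hk ⊢
  exact lt_of_le_of_lt hk h

theorem start_stop (j : Fin d.T.J) : d.start j + d.θ * d.T.dur j ≤ 1 - 3 * d.η := by
  rw [start_add]
  have h1 : ∑ k ∈ univ.filter (fun k : Fin d.T.J => k ≤ j), d.T.dur k ≤ 1 + ε :=
    le_trans (sum_le_sum_of_subset_of_nonneg (filter_subset _ _)
      fun k _ _ => (d.T.dur_pos k).le) d.T.dur_sum
  have h2 := mul_le_mul_of_nonneg_left h1 d.θ_pos.le
  have h3 : d.θ * (1 + ε) = 1 - 4 * d.η := by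
    rw [θ, div_mul_cancel₀ _ (by linarith [d.eps_nonneg])]
  linarith

/-- The window of index `j`. -/
noncomputable def win (j : Fin d.T.J) : Win where
  η := d.η
  ζ := d.ζ
  H := d.H
  K := d.K
  s0 := d.start j
  D := d.θ * d.T.dur j
  η_pos := d.η_pos
  η_small := d.η_small
  ζ_pos := d.ζ_pos
  ζ_small := d.ζ_small
  H_big := d.H_big
  K_big := d.K_big
  D_pos := mul_pos d.θ_pos (d.T.dur_pos j)
  start := d.start_ge j
  stop := d.start_stop j

theorem window_unique {i j : Fin d.T.J} {s : ℝ}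
    (hi : (d.win i).s0 ≤ s ∧ s < (d.win i).s0 + (d.win i).D)
    (hj : (d.win j).s0 ≤ s ∧ s < (d.win j).s0 + (d.win j).D) : i = j := by
  simp only [win] at hi hj
  rcases lt_trichotomy i j with h | h | h
  · linarith [d.window_le h, hi.2, hj.1]
  · exact h
  · linarith [d.window_le h, hj.2, hi.1]

/-- The left end of interval `i`. -/
noncomputable def A (i : Fin d.T.I) : ℝ := (d.T.st i : ℝ) / d.T.L

/-- The length of interval `i`. -/
noncomputable def lam (i : Fin d.T.I) : ℝ := (d.T.len i : ℝ) / d.T.L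

theorem L_posR : (0 : ℝ) < d.T.L := Nat.cast_pos.2 d.T.L_pos

theorem lam_pos (i : Fin d.T.I) : 0 < d.lam i :=
  div_pos (Nat.cast_pos.2 (d.T.len_pos i)) d.L_posR

theorem A_add_lam (i : Fin d.T.I) :
    d.A i + d.lam i = ((d.T.st i : ℝ) + d.T.len i) / d.T.L := (add_div _ _ _).symm

theorem lam_le (i : Fin d.T.I) : d.lam i ≤ 1 / 2 := by
  rw [lam, div_le_iff₀ d.L_posR]
  have h : ((2 * (d.T.st i + d.T.len i) : ℕ) : ℝ) ≤ (d.T.L : ℝ) := Nat.cast_le.2 (d.T.inside i)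
  push_cast at h
  linarith [(Nat.cast_nonneg (d.T.st i) : (0 : ℝ) ≤ _)]

theorem lam_eq (i : Fin d.T.I) : d.lam i = d.T.dur (d.T.win i) * ‖d.T.coef i‖ ^ 2 := by
  rw [lam, d.T.weight i]
  field_simp [d.L_posR.ne']

theorem coef_ne (i : Fin d.T.I) : d.T.coef i ≠ 0 := by
  intro h
  have := d.lam_pos i
  rw [lam_eq, h] at this
  simp at this

/-- The profile on interval `i` with apexes `h₁`, `h₂`. -/
noncomputable def prof (i : Fin d.T.I) (h₁ h₂ : ℝ)
    (m₁ : 1 - 2 * d.η ≤ h₁ ∧ h₁ ≤ 1 - 3 / 2 * d.η)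
    (m₂ : 1 - 2 * d.η ≤ h₂ ∧ h₂ ≤ 1 - 3 / 2 * d.η) : Prof where
  w := d.win (d.T.win i)
  A := d.A i
  Λ := d.lam i
  h₁ := h₁
  h₂ := h₂
  Λ_pos := d.lam_pos i
  h₁_mem := m₁
  h₂_mem := m₂

/-- The profile with lowest apexes; it has the same knots as every other one. -/
noncomputable def base (i : Fin d.T.I) : Prof :=
  d.prof i (1 - 2 * d.η) (1 - 2 * d.η) ⟨le_rfl, by linarith [d.η_pos]⟩
    ⟨le_rfl, by linarith [d.η_pos]⟩

/-- A Lipschitz constant for all profiles. -/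
noncomputable def lipBound : ℝ :=
  ∑ i, ∑ l ∈ range (d.base i).n, 1 / ((d.base i).kn (l + 1) - (d.base i).kn l)

theorem lipBound_nonneg : 0 ≤ d.lipBound :=
  sum_nonneg fun i _ => sum_nonneg fun l hl => div_nonneg zero_le_one
    (sub_nonneg.2 ((d.base i).kn_lt l (mem_range.1 hl)).le)

theorem tau_lip (i : Fin d.T.I) (h₁ h₂ : ℝ) (m₁ m₂) (x y : ℝ) :
    |(d.prof i h₁ h₂ m₁ m₂).tau x - (d.prof i h₁ h₂ m₁ m₂).tau y| ≤ d.lipBound * |x - y| := by
  set p := d.prof i h₁ h₂ m₁ m₂ with hp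
  refine (pl_lip p.kn_lt x y).trans (mul_le_mul_of_nonneg_right ?_ (abs_nonneg _))
  refine le_trans ?_ (single_le_sum (f := fun i => ∑ l ∈ range (d.base i).n,
    1 / ((d.base i).kn (l + 1) - (d.base i).kn l)) (fun k _ => sum_nonneg fun l hl =>
      div_nonneg zero_le_one (sub_nonneg.2 ((d.base k).kn_lt l (mem_range.1 hl)).le)) (mem_univ i))
  refine sum_le_sum fun l hl => ?_
  refine div_le_div_of_nonneg_right ?_ (sub_nonneg.2 (p.kn_lt l (mem_range.1 hl)).le)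
  have hl' := mem_range.1 hl
  obtain ⟨a1, a2⟩ := p.va_mem (show l + 1 ≤ p.n by exact hl')
  obtain ⟨b1, b2⟩ := p.va_mem (show l ≤ p.n by exact hl'.le)
  have := p.w.η_pos
  rw [abs_le]; constructor <;> linarith

/-- The ratio between the largest amplitude and the coefficient of the tiling. -/
noncomputable def ratio (j : Fin d.T.J) : ℝ :=
  Real.sqrt ((d.win j).M * (1 - 4 * d.ζ) / (d.θ * (d.win j).P))

theorem amax_eq (i : Fin d.T.I) (h₁ h₂ : ℝ) (m₁ m₂) :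
    (d.prof i h₁ h₂ m₁ m₂).amax = d.ratio (d.T.win i) * ‖d.T.coef i‖ := by
  unfold Prof.amax ratio
  rw [← Real.sqrt_sq (norm_nonneg (d.T.coef i)), ← Real.sqrt_mul' _ (sq_nonneg _)]
  congr 1
  have hθ := d.θ_pos
  have hd := d.T.dur_pos (d.T.win i)
  have hP := (d.win (d.T.win i)).P_pos
  have hM := (d.win (d.T.win i)).M_pos
  change d.lam i * (1 - 4 * d.ζ) / ((d.θ * d.T.dur (d.T.win i)) / (d.win (d.T.win i)).M *
    (d.win (d.T.win i)).P) = _
  rw [lam_eq]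
  field_simp

theorem ratio_pos (j : Fin d.T.J) : 0 < d.ratio j := by
  have := d.ζ_small
  exact Real.sqrt_pos.2 (div_pos (mul_pos (d.win j).M_pos (by linarith))
    (mul_pos d.θ_pos (d.win j).P_pos))

theorem ratio_le (j : Fin d.T.J) {X : ℝ} (hX : 1 ≤ X)
    (h : (d.K : ℝ) ≤ X * d.θ * ((d.K : ℝ) - 2)) : d.ratio j ≤ X := by
  have hP := (d.win j).P_pos
  have hM := (d.win j).M_pos
  have hθ := d.θ_pos
  have hge := (d.win j).P_ge
  have hMK : ((d.win j).M : ℝ) = d.H * d.K := by simp [Win.M, win]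
  have hH : ((d.win j).H : ℝ) = d.H := rfl
  have hH0 : (0 : ℝ) ≤ d.H := Nat.cast_nonneg _
  unfold ratio
  rw [Real.sqrt_le_left (by linarith), div_le_iff₀ (mul_pos hθ hP)]
  have h1 : ((d.win j).M : ℝ) ≤ X * d.θ * (d.win j).P := by
    calc ((d.win j).M : ℝ) = d.H * d.K := hMK
      _ ≤ d.H * (X * d.θ * ((d.K : ℝ) - 2)) := mul_le_mul_of_nonneg_left h hH0
      _ = X * d.θ * (d.H * d.K - 2 * d.H) := by ring
      _ ≤ X * d.θ * (d.win j).P := by
          refine mul_le_mul_of_nonneg_left ?_ (by positivity)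
          rw [← hMK, ← hH]; exact hge
  nlinarith [mul_le_mul_of_nonneg_right hX (mul_nonneg (mul_nonneg (by linarith : (0 : ℝ) ≤ X)
    hθ.le) hP.le), mul_nonneg hM.le d.ζ_pos.le]

theorem exists_apex {N : ℕ} (i : Fin d.T.I) (target : ℝ)
    (hN : 1 ≤ (N : ℝ) * d.ζ * d.lam i * (d.η / 2)) :
    ∃ h₁ h₂ m₁ m₂,
      (∃ z : ℤ, (d.prof i h₁ h₂ m₁ m₂).phase0 N = target + z) ∧
      ∃ z : ℤ, (N : ℝ) * (d.prof i h₁ h₂ m₁ m₂).psi (d.A i + d.lam i) = z := by
  have hN0 : 0 < (N : ℝ) := by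
    rcases Nat.eq_zero_or_pos N with h | h
    · subst h; norm_num at hN
    · exact_mod_cast h
  set a := (N : ℝ) * d.ζ * d.lam i with ha
  have ha0 : 0 < a := mul_pos (mul_pos hN0 d.ζ_pos) (d.lam_pos i)
  have hlen : 1 ≤ a * ((1 - 3 / 2 * d.η) - (1 - 2 * d.η)) := by
    rw [show (1 - 3 / 2 * d.η) - (1 - 2 * d.η) = d.η / 2 by ring]; exact hN
  set w := d.win (d.T.win i) with hw
  obtain ⟨h₁, l1, u1, z₁, e1⟩ := exists_shift ha0 hlen
    (a * ((1 - d.η + d.start (d.T.win i)) / 2) - d.lam i * N * w.Γ 0 * w.S 0 - target)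
  obtain ⟨h₂, l2, u2, z₂, e2⟩ := exists_shift ha0 hlen
    (N * (d.base i).psi ((d.base i).kn 2) + a * (h₁ - (1 - 2 * d.η)) +
      N * (d.lam i * (w.Γ w.M * w.S w.M - w.G w.M) - d.lam i * w.Γ 0 * w.S 0) +
      a * ((1 - d.η + (d.start (d.T.win i) + d.θ * d.T.dur (d.T.win i))) / 2))
  refine ⟨h₁, h₂, ⟨l1, u1⟩, ⟨l2, u2⟩, ⟨z₁, ?_⟩, ⟨z₂, ?_⟩⟩
  · unfold Prof.phase0
    rw [Prof.psi_start]
    rw [← e1, ha]
    change (N : ℝ) * (d.ζ * d.lam i * ((1 - d.η + d.start (d.T.win i)) / 2 + h₁)) -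
      d.lam i * N * w.Γ 0 * w.S 0 = _
    ring
  · rw [← e2, ha]
    set p := d.prof i h₁ h₂ ⟨l1, u1⟩ ⟨l2, u2⟩ with hp
    rw [show p.psi (d.A i + d.lam i) = p.psi (p.A + p.Λ) from rfl, Prof.psi_end,
      p.psi_mid le_rfl, Prof.psi_start, Prof.psi_start]
    change (N : ℝ) * (d.ζ * d.lam i * ((1 - d.η + d.start (d.T.win i)) / 2 + h₁) -
      d.lam i * w.Γ 0 * w.S 0 + d.lam i * (w.Γ w.M * w.S w.M - w.G w.M) +
      d.ζ * d.lam i * ((1 - d.η + (d.start (d.T.win i) + d.θ * d.T.dur (d.T.win i))) / 2 + h₂)) =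
      N * (d.ζ * d.lam i * ((1 - d.η + d.start (d.T.win i)) / 2 + (1 - 2 * d.η))) +
      _ + _ + _ + _
    ring

end Plan

end Vale.Agent.P110.UF.Design
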