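import Mathlib
import Vale.Agent.P110.UF.Phase.DesignPlan

/-!
# P110 phase design: a tiling gives phases with bounded coefficients

In the window of `t / N` the coefficient is the signal of the tiling at `k = -t`, `u = -N Gat`,
scaled by a factor close to one; all other intervals only contribute errors.
-/

open Finset
open scoped ComplexConjugate

namespace Vale.Agent.P110.UF

namespace Design

theorem down_coef (p : Prof) (N : ℕ) (t : ℝ) (h : ∃ z : ℤ, (N : ℝ) * p.psi (p.A + p.Λ) = z) :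
    (Real.sqrt N : ℂ) * (∫ x in p.A..(p.A + p.Λ),
      ex (N * (∫ y in p.A..x, p.tau (p.A + (p.A + p.Λ) - y)) - t * x)) =
    ex (-(t * (p.A + (p.A + p.Λ)))) * conj (p.coef N t) := by
  obtain ⟨z, hz⟩ := h
  set A := p.A
  set B := p.A + p.Λ with hB
  have hi : ∀ a b, IntervalIntegrable p.tau MeasureTheory.volume a b :=
    fun a b => p.continuous_tau.intervalIntegrable a b
  have hψ : ∀ x, (∫ y in A..x, p.tau (A + B - y)) = p.psi B - p.psi (A + B - x) := fun x => by
    rw [intervalIntegral.integral_comp_sub_left p.tau (A + B), Prof.psi, Prof.psi,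
      intervalIntegral.integral_interval_sub_left (hi _ _) (hi _ _)]
    simp [A]
  simp only [hψ]
  rw [Prof.coef, map_mul, Complex.conj_ofReal, ← mul_left_comm]
  congr 1
  rw [← intervalIntegral.intervalIntegral_conj, ← intervalIntegral.integral_const_mul]
  refine (intervalIntegral.integral_congr (g := fun x => ex (-(t * (A + B))) *
    conj (ex (N * p.psi (A + B - x) - t * (A + B - x)))) fun x _ => ?_).trans ?_
  · change ex _ = ex _ * conj (ex _)
    rw [← ex_neg, ← ex_add, ← ex_add_int (_ + _) z]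
    congr 1
    rw [mul_sub, hz]
    ring
  · rw [intervalIntegral.integral_comp_sub_left
      (fun x => ex (-(t * (A + B))) * conj (ex (N * p.psi x - t * x))) (A + B)]
    rw [show A + B - B = A by ring, show A + B - A = B by ring]

theorem up_combine {r a u v w : ℝ} {z : ℤ} (h : u + v = w + z) :
    ((r * a : ℝ) : ℂ) * ex u * ex v = (r : ℂ) * ((a : ℂ) * ex w) := by
  rw [mul_assoc, ← ex_add, h, ex_add_int, Complex.ofReal_mul, mul_assoc]

theorem down_combine {r a b u v w : ℝ} {z : ℤ} (h : b - u - v = w + z) :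
    ex b * conj (((r * a : ℝ) : ℂ) * ex u * ex v) = (r : ℂ) * ((a : ℂ) * ex w) := by
  rw [map_mul, map_mul, Complex.conj_ofReal, ← ex_neg, ← ex_neg, mul_assoc, ← ex_add,
    mul_left_comm, ← ex_add, show b + (-u + -v) = b - u - v by ring, h, ex_add_int,
    Complex.ofReal_mul, mul_assoc]

theorem step_lt (w : Win) {s : ℝ} (h1 : w.s0 ≤ s) (h2 : s < w.s0 + w.D) :
    ⌊(s - w.s0) / w.Δ⌋₊ < w.M := by
  have h0 : 0 ≤ (s - w.s0) / w.Δ := div_nonneg (by linarith) w.Δ_pos.le
  rw [Nat.floor_lt h0, div_lt_iff₀ w.Δ_pos, Win.Δ, mul_div_cancel₀ _ w.M_pos.ne']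
  linarith

variable {ε : ℝ} (d : Plan ε)

/-- The error bound common to all intervals. -/
theorem err_le (i : Fin d.T.I) (h₁ h₂ : ℝ) (m₁ m₂) {C U e X : ℝ} {N : ℕ}
    (hC : 0 < C) (hU : 0 < U) (he : 0 < e) (hX : d.ratio (d.T.win i) * ‖d.T.coef i‖ ≤ X)
    (hζ : d.ζ ≤ d.η * (e / (12 * C)) ^ 2)
    (hUb : 60 * C * X ≤ e * U) (hHb : 3 * X * (16 * C + 2 + 48 * U ^ 3) ≤ e * Real.sqrt d.H)
    (hNb : 12 * (d.win (d.T.win i)).M * C ≤ e * (Real.sqrt N * (d.win (d.T.win i)).Δ))
    (hN : 0 < N) :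
    (d.prof i h₁ h₂ m₁ m₂).err C U N ≤ e + e / 3 := by
  have hη := d.η_pos
  have hsN : 0 < Real.sqrt N := Real.sqrt_pos.2 (Nat.cast_pos.2 hN)
  have hsH : 0 < Real.sqrt (d.H : ℝ) := Real.sqrt_pos.2 (d.win (d.T.win i)).H_pos
  have hD := (d.win (d.T.win i)).Δ_pos
  have hX0 : 0 ≤ X := (mul_nonneg (d.ratio_pos _).le (norm_nonneg _)).trans hX
  have t1 : 4 * C * Real.sqrt (2 * d.ζ * d.lam i / d.η) ≤ e / 3 := by
    have h : Real.sqrt (2 * d.ζ * d.lam i / d.η) ≤ e / (12 * C) := by
      rw [Real.sqrt_le_left (by positivity), div_le_iff₀ hη]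
      nlinarith [mul_le_mul_of_nonneg_left (d.lam_le i) d.ζ_pos.le]
    calc 4 * C * Real.sqrt (2 * d.ζ * d.lam i / d.η) ≤ 4 * C * (e / (12 * C)) :=
          mul_le_mul_of_nonneg_left h (by positivity)
      _ = e / 3 := by field_simp; norm_num
  have t2 : X * (20 * C / U) ≤ e / 3 := by
    rw [mul_div_assoc', div_le_iff₀ hU]; linarith
  have t3 : X * ((16 * C + 2) / Real.sqrt d.H + 48 * U ^ 3 / Real.sqrt d.H) ≤ e / 3 := by
    rw [← add_div, mul_div_assoc', div_le_iff₀ hsH]; linarith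
  have t4 : 4 * (d.win (d.T.win i)).M * C / (Real.sqrt N * (d.win (d.T.win i)).Δ) ≤ e / 3 := by
    rw [div_le_iff₀ (mul_pos hsN hD)]; linarith
  rw [Prof.err, d.amax_eq]
  change 4 * C * Real.sqrt (2 * d.ζ * d.lam i / d.η) + d.ratio (d.T.win i) * ‖d.T.coef i‖ *
      ((16 * C + 2) / Real.sqrt d.H + 20 * C / U + 48 * U ^ 3 / Real.sqrt d.H) +
      4 * (d.win (d.T.win i)).M * C / (Real.sqrt N * (d.win (d.T.win i)).Δ) ≤ _
  have hm : d.ratio (d.T.win i) * ‖d.T.coef i‖ *
      ((16 * C + 2) / Real.sqrt d.H + 20 * C / U + 48 * U ^ 3 / Real.sqrt d.H) ≤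
      X * ((16 * C + 2) / Real.sqrt d.H + 20 * C / U + 48 * U ^ 3 / Real.sqrt d.H) :=
    mul_le_mul_of_nonneg_right hX (by positivity)
  nlinarith [hm, t1, t2, t3, t4]

end Design

open Design in
/-- A tiling gives phases with coefficients bounded by `1 + δ`. -/
theorem design_of : FresnelStmt → EstimateStmt → GlueStmt → TilingStmt → DesignStmt := by
  intro hF hE hG hT δ₀ hδ₀
  obtain ⟨C, hC⟩ := exists_fresnelBound hF
  set δ := min δ₀ 1 with hδd
  have hδ : 0 < δ := lt_min hδ₀ one_pos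
  have hδ1 : δ ≤ 1 := min_le_right _ _
  set ε := δ / 16 with hεd
  obtain ⟨T⟩ := hT ε (by rw [hεd]; positivity)
  set η := δ / 64 with hηd
  obtain ⟨K, hK⟩ := exists_nat_gt (3 + 32 / δ)
  have hK32 : 32 < δ * ((K : ℝ) - 3) := by
    rw [← div_lt_iff₀' hδ]; linarith
  set e := δ / (8 * ((T.I : ℝ) + 1)) with hed
  have he : 0 < e := by rw [hed]; positivity
  set X := 2 * (1 + ∑ i, ‖T.coef i‖) with hXd
  have hX : 0 < X := by rw [hXd]; positivity
  set U := 60 * C * X / e with hUd
  have hU : 0 < U := by have := hC.pos; rw [hUd]; positivity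
  obtain ⟨H₀, hH₀⟩ := exists_nat_gt ((3 * X * (16 * C + 2 + 48 * U ^ 3) / e) ^ 2)
  set ζ := min (1 / 8) (η * (e / (12 * C)) ^ 2) with hζd
  let d : Plan ε :=
    { T := T
      eps_nonneg := by rw [hεd]; positivity
      η := η
      ζ := ζ
      H := max 576 H₀
      K := K
      η_pos := by rw [hηd]; positivity
      η_small := by rw [hηd]; linarith
      ζ_pos := by have := hC.pos; rw [hζd, hηd]; positivity
      ζ_small := min_le_left _ _
      H_big := le_max_left _ _
      K_big := by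
        have h : (0 : ℝ) ≤ 32 / δ := by positivity
        exact_mod_cast (by linarith : (3 : ℝ) ≤ K) }
  have hsH : 3 * X * (16 * C + 2 + 48 * U ^ 3) ≤ e * Real.sqrt d.H := by
    have h1 : (3 * X * (16 * C + 2 + 48 * U ^ 3) / e) ^ 2 ≤ (d.H : ℝ) :=
      hH₀.le.trans (Nat.cast_le.2 (le_max_right _ _))
    rw [← div_le_iff₀' he]
    have := hC.pos
    exact Real.le_sqrt_of_sq_le h1
  have hR : ∀ j, d.ratio j ≤ 1 + δ / 3 := fun j => d.ratio_le j (by linarith) <| by
    change (K : ℝ) ≤ (1 + δ / 3) * ((1 - 4 * η) / (1 + ε)) * ((K : ℝ) - 2)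
    rw [hηd, hεd, mul_div_assoc', div_mul_eq_mul_div, le_div_iff₀ (by positivity)]
    nlinarith
  have hR2 : ∀ i, d.ratio (d.T.win i) * ‖d.T.coef i‖ ≤ X := fun i => by
    have h1 : ‖T.coef i‖ ≤ ∑ k, ‖T.coef k‖ :=
      single_le_sum (f := fun k => ‖T.coef k‖) (fun k _ => norm_nonneg _) (mem_univ i)
    calc d.ratio (d.T.win i) * ‖d.T.coef i‖ ≤ 2 * ‖T.coef i‖ :=
          mul_le_mul_of_nonneg_right ((hR _).trans (by linarith)) (norm_nonneg _)
      _ ≤ X := by rw [hXd]; linarith
  have hev : ∀ᶠ N : ℕ in Filter.atTop, 0 < N ∧ ∀ i, 1 ≤ (N : ℝ) * d.ζ * d.lam i * (d.η / 2) ∧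
      12 * (d.win (d.T.win i)).M * C ≤ e * (Real.sqrt N * (d.win (d.T.win i)).Δ) ∧
      8 * U * Real.sqrt d.H ≤ Real.sqrt N * (d.ratio (d.T.win i) * ‖d.T.coef i‖) *
        (d.win (d.T.win i)).Δ := by
    refine (Filter.eventually_gt_atTop 0).and (Filter.eventually_all.2 fun i => ?_)
    have hN := tendsto_natCast_atTop_atTop (R := ℝ)
    have hs := Real.tendsto_sqrt_atTop.comp hN
    have a1 : 0 < d.ζ * d.lam i * (d.η / 2) :=
      mul_pos (mul_pos d.ζ_pos (d.lam_pos i)) (half_pos d.η_pos)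
    have a2 : 0 < e * (d.win (d.T.win i)).Δ := mul_pos he (d.win _).Δ_pos
    have a3 : 0 < d.ratio (d.T.win i) * ‖d.T.coef i‖ * (d.win (d.T.win i)).Δ :=
      mul_pos (mul_pos (d.ratio_pos _) (norm_pos_iff.2 (d.coef_ne i))) (d.win _).Δ_pos
    filter_upwards [hN.eventually_ge_atTop (1 / (d.ζ * d.lam i * (d.η / 2))),
      hs.eventually_ge_atTop (12 * (d.win (d.T.win i)).M * C / (e * (d.win (d.T.win i)).Δ)),
      hs.eventually_ge_atTop (8 * U * Real.sqrt d.H /
        (d.ratio (d.T.win i) * ‖d.T.coef i‖ * (d.win (d.T.win i)).Δ))] with N h1 h2 h3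
    rw [div_le_iff₀ a1] at h1
    rw [div_le_iff₀ a2] at h2
    rw [div_le_iff₀ a3] at h3
    simp only [Function.comp_apply] at h2 h3
    exact ⟨by linarith, by linarith, by linarith⟩
  obtain ⟨N₀, hN₀⟩ := Filter.eventually_atTop.1 hev
  refine ⟨η, ((T.I + 1 : ℕ) : ℝ) * d.lipBound, d.η_pos, by linarith [d.η_small], N₀,
    fun N hN => ?_⟩
  obtain ⟨hNpos, hNi⟩ := hN₀ N hN
  -- apexes
  choose h₁ h₂ m₁ m₂ hph hend using fun i => d.exists_apex (N := N) i
    ((if T.up i then dir (T.coef i) else -dir (T.coef i)) - 1 / 8) (hNi i).1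
  set p : Fin T.I → Prof := fun i => d.prof i (h₁ i) (h₂ i) (m₁ i) (m₂ i) with hp
  set g : Fin T.I → ℝ → ℝ := fun i x =>
    if T.up i then (p i).tau x else (p i).tau (d.A i + (d.A i + d.lam i) - x) with hg
  have hl : ∀ i, (p i).tau (d.A i) = 1 - η := fun i =>
    (pl_left (p i).kn_lt le_rfl).trans (p i).va_zero
  have hr : ∀ i, (p i).tau (d.A i + d.lam i) = 1 - η := fun i =>
    (pl_right (p i).kn_lt (by rw [(p i).kn_last]; exact le_rfl)).trans (p i).va_last
  obtain ⟨Φ, τ, hPh, hco⟩ := hG T.L T.I T.st T.len T.L_pos T.L_even T.len_pos T.inside T.cover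
    η d.lipBound (1 - η) N g (by linarith [d.η_small]) le_rfl d.lipBound_nonneg
    (fun i x y => by
      simp only [hg]
      split
      · exact d.tau_lip i _ _ _ _ x y
      · refine (d.tau_lip i _ _ _ _ _ _).trans (le_of_eq ?_)
        rw [sub_sub_sub_cancel_left, abs_sub_comm])
    (fun i x => by
      simp only [hg]
      split <;> exact pl_mem (p i).kn_lt (fun l hl => (p i).va_mem hl) _)
    (fun i => by
      change g i (d.A i) = _ ∧ g i (((T.st i : ℝ) + T.len i) / T.L) = _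
      rw [← d.A_add_lam i]
      simp only [hg]
      split
      · exact ⟨hl i, hr i⟩
      · exact ⟨by rw [add_sub_cancel_left]; exact hr i, by rw [add_sub_cancel_right]; exact hl i⟩)
    (fun i => by
      obtain ⟨z, hz⟩ := hend i
      refine ⟨z, ?_⟩
      change (N : ℝ) * (∫ x in (d.A i)..(((T.st i : ℝ) + T.len i) / T.L), g i x) = _
      rw [← d.A_add_lam i, ← hz]
      simp only [hg]
      split
      · rfl
      · rw [intervalIntegral.integral_comp_sub_left (p i).tau, add_sub_cancel_left,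
          add_sub_cancel_right]
        rfl)
  refine ⟨Φ, τ, hPh, fun k => ?_⟩
  set t : ℤ := ((k : ℕ) : ℤ) with ht
  set s : ℝ := (t : ℝ) / N with hs
  -- one interval
  set cc : Fin T.I → ℂ := fun i => if T.up i then (p i).coef N t
    else ex (-((t : ℝ) * (d.A i + (d.A i + d.lam i)))) * conj ((p i).coef N t) with hcc
  set mm : Fin T.I → ℂ := fun i => if T.up i then (p i).main N t
    else ex (-((t : ℝ) * (d.A i + (d.A i + d.lam i)))) * conj ((p i).main N t) with hmm
  have hsum : phaseCoef N Φ t = 2 * (∑ i, cc i).re := by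
    rw [hco t, mul_left_comm]
    congr 1
    rw [← Complex.re_ofReal_mul, mul_sum]
    congr 1
    refine sum_congr rfl fun i _ => ?_
    change (Real.sqrt N : ℂ) * (∫ x in (d.A i)..(((T.st i : ℝ) + T.len i) / T.L),
      ex (N * (∫ y in (d.A i)..x, g i y) - t * x)) = _
    rw [← d.A_add_lam i]
    simp only [hcc, hg]
    split
    · rfl
    · exact down_coef (p i) N t (hend i)
  have herr : ∀ i, ‖cc i - mm i‖ ≤ e + e / 3 := fun i => by
    have h1 : ‖(p i).coef N t - (p i).main N t‖ ≤ (p i).err C U N := by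
      refine hE C U hC hU (p i) N hNpos ?_ t
      simp only [hp]
      rw [d.amax_eq]
      exact (hNi i).2.2
    have h2 : (p i).err C U N ≤ e + e / 3 :=
      err_le d i _ _ _ _ hC.pos hU he (hR2 i) (min_le_right _ _)
        (le_of_eq (by rw [hUd]; field_simp)) hsH (hNi i).2.1 hNpos
    refine le_trans ?_ (h1.trans h2)
    simp only [hcc, hmm]
    split
    · exact le_rfl
    · rw [← mul_sub, ← map_sub, norm_mul, norm_ex, one_mul, RCLike.norm_conj]
  have hout : ∀ i, ¬ ((d.win (T.win i)).s0 ≤ s ∧ s < (d.win (T.win i)).s0 + (d.win (T.win i)).D) →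
      mm i = 0 := fun i h => by
    have : (p i).main N t = 0 := if_neg h
    simp [hmm, this]
  have hmain : |2 * (∑ i, mm i).re| ≤ (1 + δ / 3) * (1 + ε) := by
    have hpos : (0 : ℝ) ≤ (1 + δ / 3) * (1 + ε) := by positivity
    by_cases hw : ∃ j, (d.win j).s0 ≤ s ∧ s < (d.win j).s0 + (d.win j).D
    swap
    · rw [sum_eq_zero fun i _ => hout i fun h => hw ⟨_, h⟩]
      simpa using hpos
    obtain ⟨j, hj⟩ := hw
    rw [← sum_filter_of_ne (p := fun i => T.win i = j) fun i _ hne => by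
      by_contra h
      exact hne (hout i fun h' => h (d.window_unique h' hj))]
    set l : ℕ := ⌊(s - (d.win j).s0) / (d.win j).Δ⌋₊ with hldef
    set u : ℝ := -((N : ℝ) * (d.win j).Gat l s) with hu
    have hterm : ∀ i ∈ univ.filter (fun i => T.win i = j), mm i =
        ((d.ratio j * (d.win j).q l : ℝ) : ℂ) * (T.coef i * ex ((if T.up i
          then (T.st i : ℝ) * ((-t : ℤ) : ℝ) + T.len i * u
          else ((T.st i + T.len i : ℕ) : ℝ) * ((-t : ℤ) : ℝ) - T.len i * u) / T.L)) := by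
      intro i hi
      have hij : T.win i = j := (mem_filter.1 hi).2
      subst hij
      obtain ⟨z, hz⟩ := hph i
      have hmn : (p i).main N t = ((d.ratio (T.win i) * ‖T.coef i‖ * (d.win (T.win i)).q l : ℝ) : ℂ) *
          ex (1 / 8) * ex ((if T.up i then dir (T.coef i) else -dir (T.coef i)) - 1 / 8 + z -
            ((t : ℝ) * d.A i + d.lam i * N * (d.win (T.win i)).Gat l s)) := by
        rw [← hz, ← d.amax_eq i (h₁ i) (h₂ i) (m₁ i) (m₂ i)]
        exact if_pos hj
      simp only [hmm, hmn]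
      rw [show ∀ a b : ℝ, (d.ratio (T.win i) * a * b) = (d.ratio (T.win i) * b) * a by intros; ring]
      have hc : ∀ v, T.coef i * ex v = (‖T.coef i‖ : ℂ) * ex (dir (T.coef i) + v) := fun v => by
        rw [ex_add, ← mul_assoc, norm_mul_ex_dir]
      rw [hc]
      by_cases hup : T.up i = true
      · simp only [hup, if_true]
        refine up_combine (z := z) ?_
        simp only [hu, Plan.A, Plan.lam]
        push_cast
        ring
      · simp only [hup, if_false, Bool.false_eq_true]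
        refine down_combine (z := -z) ?_
        simp only [hu, Plan.A, Plan.lam]
        push_cast
        ring
    rw [sum_congr rfl hterm, ← mul_sum, Complex.re_ofReal_mul]
    have hq0 : 0 ≤ (d.win j).q l := ((d.win j).q_pos (step_lt _ hj.1 hj.2)).le
    have hb := T.bound j (-t) u
    have hrq : d.ratio j * (d.win j).q l ≤ 1 + δ / 3 :=
      (mul_le_of_le_one_right (d.ratio_pos j).le ((d.win j).q_le_one l)).trans (hR j)
    rw [mul_left_comm, abs_mul, abs_of_nonneg (mul_nonneg (d.ratio_pos j).le hq0)]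
    exact mul_le_mul hrq hb (abs_nonneg _) (by linarith)
  have htot : ‖∑ i, (cc i - mm i)‖ ≤ δ / 6 := by
    refine (norm_sum_le _ _).trans ((sum_le_sum fun i _ => herr i).trans ?_)
    rw [sum_const, card_univ, Fintype.card_fin, nsmul_eq_mul, hed]
    have h1 : (0 : ℝ) ≤ T.I := Nat.cast_nonneg _
    field_simp
    nlinarith
  rw [hsum]
  have hsplit : 2 * (∑ i, cc i).re = 2 * (∑ i, mm i).re + 2 * (∑ i, (cc i - mm i)).re := by
    rw [sum_sub_distrib, Complex.sub_re]; ring
  rw [hsplit]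
  have h2 : |2 * (∑ i, (cc i - mm i)).re| ≤ δ / 3 := by
    rw [abs_mul, abs_two]
    refine (mul_le_mul_of_nonneg_left ((Complex.abs_re_le_norm _).trans htot) zero_le_two).trans ?_
    linarith
  refine (abs_add_le _ _).trans ((add_le_add hmain h2).trans ?_)
  have : δ ≤ δ₀ := min_le_left _ _
  rw [hεd]
  nlinarith

end Vale.Agent.P110.UF
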