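import Mathlib
import Vale.Agent.P110.UF.Phase.EstimateDefs

/-!
# P110 phase design: proof of the estimate for one interval
-/

open Finset MeasureTheory

namespace Vale.Agent.P110.UF

/-- `junction` in terms of chirp integrals. -/
theorem junction_chirp {C : ℝ} (hC : FresnelBound C) {σ σ' ε U A B u u' : ℝ} (hσ : σ ≠ 0)
    (hσ'0 : σ' ≠ 0) (hu : σ' * u' = σ * u) (hε1 : ε ≤ 1 / 2) (hσ' : |σ' - σ| ≤ ε * |σ|)
    (hU : 0 < U) (hB : U / Real.sqrt |σ| ≤ B) (hu0 : 0 ≤ u) (huA : u ≤ A / 2)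
    (hA : U / Real.sqrt |σ| ≤ A) (φ : ℝ) :
    ‖ex (φ - σ' * u' ^ 2 / 2) * chirp σ' (-B - u') (-u') +
        ex (φ - σ * u ^ 2 / 2) * chirp σ (-u) (A - u) -
        ex (φ - σ * u ^ 2 / 2) * (kappa σ / (Real.sqrt |σ| : ℝ))‖
      ≤ (20 * C / U + 4 * ε * U ^ 3) / Real.sqrt |σ| := by
  refine le_of_eq_of_le ?_ (junction hC hσ hε1 hσ' hU hB hu0 huA hA)
  have key : ∀ τ v a b : ℝ, τ ≠ 0 → τ * v = σ * u →
      ∫ x in a..b, ex (τ * x ^ 2 / 2 - σ * u * x) =
        ex (-(τ * v ^ 2 / 2)) * chirp τ (a - v) (b - v) := fun τ v a b hτ hv => by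
    have h := integral_quad hτ 0 (-(τ * v)) 0 a b
    simp only [sub_zero, zero_add, zero_sub] at h
    rw [show (fun x => ex (τ * x ^ 2 / 2 - σ * u * x)) =
      fun x => ex (-(τ * v) * x + τ * x ^ 2 / 2) from
        funext fun x => by congr 1; rw [← hv]; ring, h]
    congr 2 <;> field_simp <;> ring
  rw [key σ' u' _ _ hσ'0 hu, key σ u _ _ hσ rfl, zero_sub, zero_sub,
    show φ - σ' * u' ^ 2 / 2 = φ + -(σ' * u' ^ 2 / 2) by ring,
    show φ - σ * u ^ 2 / 2 = φ + -(σ * u ^ 2 / 2) by ring, ex_add, ex_add, mul_assoc, mul_assoc,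
    mul_assoc, ← mul_add, ← mul_sub, norm_mul, norm_ex, one_mul]

namespace Prof

variable (p : Prof)

theorem amax_pos : 0 < p.amax :=
  Real.sqrt_pos.2 (div_pos (mul_pos p.Λ_pos (by linarith [p.w.ζ_small]))
    (mul_pos p.w.Δ_pos p.w.P_pos))

theorem amp_eq {l : ℕ} (hl : l < p.w.M) : Real.sqrt (p.Λ * p.w.γ l) = p.amax * p.w.q l := by
  rw [amax, mul_comm _ (p.w.q l), ← Real.sqrt_sq (p.w.q_pos hl).le,
    ← Real.sqrt_mul (sq_nonneg _), Win.γ]
  congr 1
  field_simp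

theorem statPhase_mid {N : ℕ} (hN : 0 < N) (t : ℝ) {l : ℕ} (hl : l < p.w.M) :
    p.statPhase N t (l + 2) = p.phase0 N - (t * p.A + p.Λ * N * p.w.Gat l (t / N)) := by
  have hN' : (N : ℝ) ≠ 0 := Nat.cast_ne_zero.2 hN.ne'
  have hg := (p.w.γ_pos hl).ne'
  have hL := p.Λ_pos.ne'
  rw [statPhase, phase0, Win.Gat, p.psi_mid hl.le, va_mid p hl.le, kn_mid p hl.le, p.slope_mid hl]
  field_simp
  ring

theorem coef_split (N : ℕ) (t : ℝ) :
    p.coef N t = (∑ l ∈ range p.w.M, p.piece N t (l + 2)) + (p.piece N t 0 + p.piece N t 1 +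
      p.piece N t (p.w.M + 2) + p.piece N t (p.w.M + 3)) := by
  rw [coef_eq_sum, show p.n = p.w.M + 2 + 1 + 1 from rfl, sum_range_succ, sum_range_succ,
    sum_range_succ', sum_range_succ']
  ring

/-- All steps outside `F` are negligible. -/
theorem sum_far {C : ℝ} (hC : FresnelBound C) {N : ℕ} (hN : 0 < N) (t : ℝ) (F : Finset ℕ)
    (hF : F ⊆ range p.w.M) (h : ∀ l ∈ range p.w.M \ F,
      t / N + p.w.Δ / 2 ≤ p.w.S l ∨ p.w.S (l + 1) ≤ t / N - p.w.Δ / 2) :
    ‖(∑ l ∈ range p.w.M, p.piece N t (l + 2)) - ∑ l ∈ F, p.piece N t (l + 2)‖ ≤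
      2 * p.w.M * C / (Real.sqrt N * p.w.Δ) := by
  rw [← sum_sdiff hF, add_sub_cancel_right]
  refine (norm_sum_le _ _).trans ((sum_le_card_nsmul _ _ (C / (Real.sqrt N * (p.w.Δ / 2)))
    fun l hl => p.mid_far hC hN t (mem_range.1 (mem_sdiff.1 hl).1) (half_pos p.w.Δ_pos) (h l hl))
    |>.trans ?_)
  rw [nsmul_eq_mul]
  have hc : ((range p.w.M \ F).card : ℝ) ≤ p.w.M := by
    have := card_le_card (sdiff_subset : range p.w.M \ F ⊆ range p.w.M)
    rw [card_range] at this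
    exact_mod_cast this
  refine (mul_le_mul_of_nonneg_right hc (div_nonneg hC.pos.le
    (mul_nonneg (Real.sqrt_nonneg _) (half_pos p.w.Δ_pos).le))).trans (le_of_eq ?_)
  field_simp

theorem far_below {s : ℝ} {l i : ℕ} (h : s < p.w.S l) (hi : l + 1 ≤ i) :
    s + p.w.Δ / 2 ≤ p.w.S i ∨ p.w.S (i + 1) ≤ s - p.w.Δ / 2 := by
  have h1 := p.w.S_le hi
  rw [Win.S_succ] at h1
  exact Or.inl (by linarith [p.w.Δ_pos])

theorem far_above {s : ℝ} {l i : ℕ} (h : p.w.S l ≤ s) (hi : i + 2 ≤ l) :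
    s + p.w.Δ / 2 ≤ p.w.S i ∨ p.w.S (i + 1) ≤ s - p.w.Δ / 2 := by
  have h1 := p.w.S_le hi
  rw [show i + 2 = i + 1 + 1 by rfl, Win.S_succ] at h1
  exact Or.inr (by linarith [p.w.Δ_pos])

theorem rel_le {a b r : ℝ} (ha : 0 < a) (hb : 0 < b) (hr : 24 ≤ r) (hab : |a - b| ≤ 1 / r ^ 2)
    (hra : 1 / r ≤ a) : a / 2 ≤ b ∧ |a ^ 2 / b ^ 2 - 1| ≤ 12 / r := by
  have hr0 : 0 < r := by linarith
  have h1 : 1 ≤ a * r := by rw [div_le_iff₀ hr0] at hra; linarith
  have h2 : 1 / r ^ 2 ≤ a / r := by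
    rw [div_le_div_iff₀ (by positivity) hr0]
    nlinarith [mul_le_mul_of_nonneg_right h1 hr0.le]
  have h3 : a / r ≤ a / 24 := div_le_div_of_nonneg_left ha.le (by norm_num) hr
  obtain ⟨l1, l2⟩ := abs_le.1 hab
  have hba : a / 2 ≤ b := by linarith
  refine ⟨hba, ?_⟩
  rw [div_sub_one (pow_ne_zero 2 hb.ne'), abs_div, abs_of_pos (pow_pos hb 2),
    div_le_div_iff₀ (pow_pos hb 2) hr0, show a ^ 2 - b ^ 2 = (a - b) * (a + b) by ring, abs_mul,
    abs_of_pos (show 0 < a + b by linarith)]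
  have h4 : |a - b| * r ≤ a := by
    have := mul_le_mul_of_nonneg_right (hab.trans h2) hr0.le
    rwa [div_mul_cancel₀ _ hr0.ne'] at this
  calc |a - b| * (a + b) * r = (|a - b| * r) * (a + b) := by ring
    _ ≤ a * (a + b) := mul_le_mul_of_nonneg_right h4 (by linarith)
    _ ≤ 12 * b ^ 2 := by nlinarith

/-- Step `l` with a neighbour `l'` act as one chirp. -/
theorem pair_le {C U : ℝ} (hC : FresnelBound C) (hU : 0 < U) {N : ℕ} (hN : 0 < N)
    (hbig : 8 * U * Real.sqrt p.w.H ≤ Real.sqrt N * p.amax * p.w.Δ)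
    {l l' : ℕ} (hl : l < p.w.M) (hl' : l' < p.w.M) (hq : 1 / Real.sqrt p.w.H ≤ p.w.q l)
    (hnb : |p.w.q l - p.w.q l'| ≤ 1 / p.w.H) {δ : ℝ} (hδ0 : 0 ≤ δ) (hδ : δ ≤ p.w.Δ / 2)
    (φ : ℝ) :
    ‖(Real.sqrt N : ℂ) * (ex (φ - p.Λ * p.w.γ l' * N * δ ^ 2 / 2) *
        chirp (N * p.slope (l' + 2)) (-(p.w.Δ / p.slope (l' + 2)) - δ / p.slope (l' + 2))
          (-(δ / p.slope (l' + 2))) +
      ex (φ - p.Λ * p.w.γ l * N * δ ^ 2 / 2) *
        chirp (N * p.slope (l + 2)) (-(δ / p.slope (l + 2)))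
          (p.w.Δ / p.slope (l + 2) - δ / p.slope (l + 2))) -
      ((p.amax * p.w.q l : ℝ) : ℂ) * ex (1 / 8) * ex (φ - p.Λ * p.w.γ l * N * δ ^ 2 / 2)‖
      ≤ p.amax * (20 * C / U + 48 * U ^ 3 / Real.sqrt p.w.H) := by
  have hN' : (0 : ℝ) < N := Nat.cast_pos.2 hN
  have hs := p.slope_mid_pos hl
  have hs' := p.slope_mid_pos hl'
  have hg := p.w.γ_pos hl
  have hg' := p.w.γ_pos hl'
  have hsH : (24 : ℝ) ≤ Real.sqrt p.w.H := by
    rw [show (24 : ℝ) = Real.sqrt 576 by rw [show (576 : ℝ) = 24 ^ 2 by norm_num,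
      Real.sqrt_sq (by norm_num)]]
    exact Real.sqrt_le_sqrt (by exact_mod_cast p.w.H_big)
  set r := Real.sqrt p.w.H with hr
  have hr2 : r ^ 2 = (p.w.H : ℝ) := Real.sq_sqrt p.w.H_pos.le
  obtain ⟨hq', hrel⟩ := rel_le (p.w.q_pos hl) (p.w.q_pos hl') hsH (by rwa [hr2]) hq
  set σ : ℝ := N * p.slope (l + 2) with hσ
  set σ' : ℝ := N * p.slope (l' + 2) with hσ'
  have hσp : 0 < σ := mul_pos hN' hs
  have hsl : p.slope (l + 2) = 1 / (p.Λ * p.w.γ l) := p.slope_mid hl
  have hsl' : p.slope (l' + 2) = 1 / (p.Λ * p.w.γ l') := p.slope_mid hl'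
  have hγ : p.w.γ l / p.w.γ l' = p.w.q l ^ 2 / p.w.q l' ^ 2 := by
    have hz : 1 - 4 * p.w.ζ ≠ 0 := by linarith [p.w.ζ_small]
    have := p.w.Δ_pos.ne'
    have := p.w.P_pos.ne'
    have := (p.w.q_pos hl').ne'
    unfold Win.γ
    field_simp
  have hdiff : |σ' - σ| ≤ 12 / r * |σ| := by
    have e : σ' - σ = σ * (p.w.q l ^ 2 / p.w.q l' ^ 2 - 1) := by
      rw [← hγ, hσ', hσ, hsl, hsl']
      have := p.Λ_pos.ne'
      field_simp
    rw [e, abs_mul, mul_comm]
    exact mul_le_mul_of_nonneg_right hrel (abs_nonneg _)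
  have hamp : Real.sqrt N / Real.sqrt |σ| = p.amax * p.w.q l := by
    rw [abs_of_pos hσp, ← Real.sqrt_div' _ hσp.le, ← p.amp_eq hl, hσ, hsl]
    congr 1
    field_simp
  have len : ∀ i, i < p.w.M → p.w.q l / 2 ≤ p.w.q i →
      U / Real.sqrt |σ| ≤ p.w.Δ / p.slope (i + 2) := by
    intro i hi hqi
    have hsq : 0 < Real.sqrt |σ| := Real.sqrt_pos.2 (abs_pos.2 hσp.ne')
    have hsN : 0 < Real.sqrt N := Real.sqrt_pos.2 hN'
    have e1 : U / Real.sqrt |σ| = U * (p.amax * p.w.q l) / Real.sqrt N := by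
      rw [← hamp]; field_simp
    have e2 : p.w.Δ / p.slope (i + 2) = p.w.Δ * (p.amax * p.w.q i) ^ 2 := by
      rw [← p.amp_eq hi, Real.sq_sqrt (mul_pos p.Λ_pos (p.w.γ_pos hi)).le, p.slope_mid hi,
        div_div_eq_mul_div, div_one]
    rw [e1, e2, div_le_iff₀ hsN]
    have ha := p.amax_pos
    have hqr : 1 ≤ p.w.q l * r := by rw [div_le_iff₀ (by linarith)] at hq; linarith
    have h1 : 4 * U ≤ p.amax * p.w.q l * p.w.Δ * Real.sqrt N := by
      have h2 := mul_le_mul_of_nonneg_right hbig (p.w.q_pos hl).le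
      have h3 : 4 * U ≤ 8 * U * (p.w.q l * r) := by nlinarith [mul_le_mul_of_nonneg_left hqr hU.le]
      linarith [show 8 * U * r * p.w.q l = 8 * U * (p.w.q l * r) by ring,
        show Real.sqrt N * p.amax * p.w.Δ * p.w.q l = p.amax * p.w.q l * p.w.Δ * Real.sqrt N by
          ring]
    have h4 : (p.w.q l) ^ 2 / 4 ≤ (p.w.q i) ^ 2 := by nlinarith [p.w.q_pos hl]
    calc U * (p.amax * p.w.q l)
        ≤ (p.amax * p.w.q l * p.w.Δ * Real.sqrt N / 4) * (p.amax * p.w.q l) :=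
          mul_le_mul_of_nonneg_right (by linarith) (mul_nonneg ha.le (p.w.q_pos hl).le)
      _ = p.w.Δ * p.amax ^ 2 * Real.sqrt N * (p.w.q l ^ 2 / 4) := by ring
      _ ≤ p.w.Δ * p.amax ^ 2 * Real.sqrt N * p.w.q i ^ 2 := mul_le_mul_of_nonneg_left h4
          (mul_nonneg (mul_nonneg p.w.Δ_pos.le (sq_nonneg _)) hsN.le)
      _ = _ := by ring
  have h := junction_chirp hC (σ := σ) (σ' := σ') (ε := 12 / r) (U := U)
    (A := p.w.Δ / p.slope (l + 2)) (B := p.w.Δ / p.slope (l' + 2)) (u := δ / p.slope (l + 2))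
    (u' := δ / p.slope (l' + 2)) hσp.ne' (mul_pos hN' hs').ne'
    (by rw [hσ, hσ']; field_simp) (by rw [div_le_iff₀ (by linarith)]; linarith) hdiff hU
    (len l' hl' hq') (div_nonneg hδ0 hs.le)
    (by rw [div_right_comm p.w.Δ]; exact div_le_div_of_nonneg_right hδ hs.le)
    (len l hl (by linarith [p.w.q_pos hl])) φ
  have eu : ∀ i, i < p.w.M → (N : ℝ) * p.slope (i + 2) * (δ / p.slope (i + 2)) ^ 2 / 2 =
      p.Λ * p.w.γ i * N * δ ^ 2 / 2 := fun i hi => by
    rw [p.slope_mid hi]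
    have := (p.w.γ_pos hi).ne'
    have := p.Λ_pos.ne'
    field_simp
  have hk : kappa σ = ex (1 / 8) := by rw [kappa, if_pos hσp]
  rw [hσ', hσ, eu l' hl', eu l hl, ← hσ, ← hσ', hk] at h
  rw [← hamp, Complex.ofReal_div,
    show ((Real.sqrt N : ℂ) / (Real.sqrt |σ| : ℂ)) * ex (1 / 8) *
      ex (φ - p.Λ * p.w.γ l * N * δ ^ 2 / 2) = (Real.sqrt N : ℂ) *
        (ex (φ - p.Λ * p.w.γ l * N * δ ^ 2 / 2) * (ex (1 / 8) / (Real.sqrt |σ| : ℂ))) by ring,
    ← mul_sub, norm_mul, Complex.norm_real, Real.norm_of_nonneg (Real.sqrt_nonneg _)]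
  refine (mul_le_mul_of_nonneg_left h (Real.sqrt_nonneg _)).trans ?_
  rw [mul_div_assoc', mul_comm (Real.sqrt N), mul_div_assoc, hamp, mul_comm]
  have h0 : 0 ≤ 20 * C / U + 48 * U ^ 3 / r := by
    have := hC.pos
    positivity
  calc p.amax * p.w.q l * (20 * C / U + 4 * (12 / r) * U ^ 3)
      = p.amax * (20 * C / U + 48 * U ^ 3 / r) * p.w.q l := by ring
    _ ≤ _ := mul_le_of_le_one_right (mul_nonneg p.amax_pos.le h0) (p.w.q_le_one l)

theorem norm_piece_le {C : ℝ} (hC : FresnelBound C) {N : ℕ} (hN : 0 < N) (t : ℝ) {l : ℕ}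
    (hl : l < p.w.M) : ‖p.piece N t (l + 2)‖ ≤ C * (p.amax * p.w.q l) := by
  rw [← p.amp_eq hl]; exact p.mid_crude hC hN t hl

/-- The chain inside the window. -/
theorem chain_inside {C U : ℝ} (hC : FresnelBound C) (hU : 0 < U) {N : ℕ} (hN : 0 < N)
    (hbig : 8 * U * Real.sqrt p.w.H ≤ Real.sqrt N * p.amax * p.w.Δ) (t : ℝ) {l : ℕ}
    (hl : l < p.w.M) (h1 : p.w.S l ≤ t / N) (h2 : t / N < p.w.S (l + 1)) :
    ‖(∑ i ∈ range p.w.M, p.piece N t (i + 2)) - ((p.amax * p.w.q l : ℝ) : ℂ) * ex (1 / 8) *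
        ex (p.phase0 N - (t * p.A + p.Λ * N * p.w.Gat l (t / N)))‖ ≤
      p.amax * ((16 * C + 2) / Real.sqrt p.w.H + 20 * C / U + 48 * U ^ 3 / Real.sqrt p.w.H) +
        4 * p.w.M * C / (Real.sqrt N * p.w.Δ) := by
  set M' := p.w.M
  set r := Real.sqrt p.w.H with hr
  have hr0 : 0 < r := Real.sqrt_pos.2 p.w.H_pos
  have ha := p.amax_pos
  have hCp := hC.pos
  have hfar : 2 * (p.w.M : ℝ) * C / (Real.sqrt N * p.w.Δ) ≤
      4 * p.w.M * C / (Real.sqrt N * p.w.Δ) :=
    div_le_div_of_nonneg_right (by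
      have : (0 : ℝ) ≤ p.w.M * C := mul_nonneg (Nat.cast_nonneg _) hCp.le
      linarith) (mul_nonneg (Real.sqrt_nonneg _) p.w.Δ_pos.le)
  set main : ℂ := ((p.amax * p.w.q l : ℝ) : ℂ) * ex (1 / 8) *
    ex (p.phase0 N - (t * p.A + p.Λ * N * p.w.Gat l (t / N))) with hmain
  have split : ∀ F ⊆ range p.w.M, (∀ i ∈ range p.w.M \ F,
      t / N + p.w.Δ / 2 ≤ p.w.S i ∨ p.w.S (i + 1) ≤ t / N - p.w.Δ / 2) →
      ‖(∑ i ∈ range p.w.M, p.piece N t (i + 2)) - main‖ ≤
        ‖(∑ i ∈ F, p.piece N t (i + 2)) - main‖ + 4 * p.w.M * C / (Real.sqrt N * p.w.Δ) := by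
    intro F hF hh
    have := (p.sum_far hC hN t F hF hh).trans hfar
    refine (norm_sub_le_norm_sub_add_norm_sub _ (∑ i ∈ F, p.piece N t (i + 2)) _).trans ?_
    linarith
  by_cases hq : p.w.q l < 1 / r
  · -- near the ends of the window everything is small
    set F := (range p.w.M).filter fun i => l ≤ i + 1 ∧ i ≤ l + 1
    refine (split F (filter_subset _ _) fun i hi => ?_).trans (add_le_add ?_ le_rfl)
    · obtain ⟨hi1, hi2⟩ := mem_sdiff.1 hi
      simp only [F, mem_filter, hi1, true_and, not_and_or, not_le] at hi2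
      rcases hi2 with h | h
      · exact p.far_above h1 (by omega)
      · exact p.far_below h2 (by omega)
    · have hterm : ∀ i ∈ F, ‖p.piece N t (i + 2)‖ ≤ C * (p.amax * (2 / r)) := by
        intro i hi
        obtain ⟨hiM, ha1, ha2⟩ := mem_filter.1 hi
        refine (p.norm_piece_le hC hN t (mem_range.1 hiM)).trans
          (mul_le_mul_of_nonneg_left (mul_le_mul_of_nonneg_left ?_ ha.le) hCp.le)
        have hH : 1 / (p.w.H : ℝ) ≤ 1 / r := one_div_le_one_div_of_le hr0 (by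
          rw [hr, Real.sqrt_le_left p.w.H_pos.le]
          have : (1 : ℝ) ≤ p.w.H := by
            have := p.w.H_big
            exact_mod_cast (show 1 ≤ p.w.H by omega)
          nlinarith)
        rw [show 2 / r = 1 / r + 1 / r by ring]
        rcases (show i + 1 = l ∨ i = l ∨ i = l + 1 by omega) with e | e | e
        · have := abs_le.1 (p.w.q_succ i)
          rw [e] at this
          linarith [this.1]
        · rw [e]; linarith [p.w.q_pos hl, show 0 < 1 / r from one_div_pos.2 hr0]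
        · have := abs_le.1 (p.w.q_succ l)
          rw [← e] at this
          linarith [this.2]
      have hcard : #F ≤ 3 := by
        refine (card_le_card (t := Icc (l - 1) (l + 1)) fun i hi => ?_).trans
          (by rw [Nat.card_Icc]; omega)
        obtain ⟨-, a, b⟩ := mem_filter.1 hi
        exact mem_Icc.2 ⟨by omega, b⟩
      have hsum : ‖∑ i ∈ F, p.piece N t (i + 2)‖ ≤ 3 * (C * (p.amax * (2 / r))) := by
        refine (norm_sum_le _ _).trans ((sum_le_card_nsmul _ _ _ hterm).trans ?_)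
        rw [nsmul_eq_mul]
        exact mul_le_mul_of_nonneg_right (by exact_mod_cast hcard) (by positivity)
      have hm : ‖main‖ ≤ p.amax * (1 / r) := by
        rw [hmain, norm_mul, norm_mul, norm_ex, norm_ex, mul_one, mul_one, Complex.norm_real,
          Real.norm_of_nonneg (mul_nonneg ha.le (p.w.q_pos hl).le)]
        exact mul_le_mul_of_nonneg_left hq.le ha.le
      refine (norm_sub_le _ _).trans ((add_le_add hsum hm).trans ?_)
      have e : 3 * (C * (p.amax * (2 / r))) + p.amax * (1 / r) =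
          p.amax * ((6 * C + 1) / r) := by ring
      rw [e]
      refine mul_le_mul_of_nonneg_left ?_ ha.le
      have : (6 * C + 1) / r ≤ (16 * C + 2) / r :=
        div_le_div_of_nonneg_right (by linarith) hr0.le
      have : 0 ≤ 20 * C / U := by positivity
      have : 0 ≤ 48 * U ^ 3 / r := by positivity
      linarith
  have hq' : 1 / r ≤ p.w.q l := not_lt.1 hq
  have hH1 : 1 / (p.w.H : ℝ) < 1 / r := one_div_lt_one_div_of_lt hr0 (by
    rw [hr, Real.sqrt_lt' p.w.H_pos]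
    have : (2 : ℝ) ≤ p.w.H := by
      have := p.w.H_big
      exact_mod_cast (show 2 ≤ p.w.H by omega)
    nlinarith)
  have hl0 : l ≠ 0 := fun e => by
    rw [e] at hq'
    linarith [p.w.q_first]
  have hlM : l + 1 < p.w.M := by
    by_contra h
    rw [show l = p.w.M - 1 by omega] at hq'
    linarith [p.w.q_last]
  have hsub : ∀ a, a < p.w.M → p.piece N t (a + 2) = (Real.sqrt N : ℂ) *
      (ex (p.phase0 N - (t * p.A + p.Λ * N * p.w.Gat a (t / N))) *
        chirp (N * p.slope (a + 2)) ((p.w.S a - t / N) / p.slope (a + 2))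
          ((p.w.S (a + 1) - t / N) / p.slope (a + 2))) := fun a ha' => by
    rw [p.piece_eq hN t (by unfold n; omega) (p.slope_mid_pos ha').ne', p.statPhase_mid hN t ha',
      show a + 2 + 1 = a + 1 + 2 by rfl, va_mid p ha'.le, va_mid p ha']
  have fin : p.amax * (20 * C / U + 48 * U ^ 3 / r) + 4 * p.w.M * C / (Real.sqrt N * p.w.Δ) ≤
      p.amax * ((16 * C + 2) / r + 20 * C / U + 48 * U ^ 3 / r) +
        4 * p.w.M * C / (Real.sqrt N * p.w.Δ) := by
    have : 0 ≤ p.amax * ((16 * C + 2) / r) := by positivity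
    linarith [mul_add p.amax ((16 * C + 2) / r + 20 * C / U) (48 * U ^ 3 / r),
      mul_add p.amax ((16 * C + 2) / r) (20 * C / U),
      mul_add p.amax (20 * C / U) (48 * U ^ 3 / r)]
  by_cases hside : t / N - p.w.S l ≤ p.w.Δ / 2
  · -- the neighbour on the left
    obtain ⟨k, rfl⟩ : ∃ k, l = k + 1 := ⟨l - 1, by omega⟩
    have hk : k < p.w.M := by omega
    refine (split {k, k + 1} (fun i hi => ?_) fun i hi => ?_).trans
      ((add_le_add ?_ le_rfl).trans fin)
    · simp only [mem_insert, mem_singleton] at hi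
      exact mem_range.2 (by omega)
    · simp only [mem_sdiff, mem_range, mem_insert, mem_singleton, not_or] at hi
      rcases (show i + 2 ≤ k + 1 ∨ k + 2 ≤ i by omega) with h | h
      · exact p.far_above h1 h
      · rcases (show i = k + 2 ∨ k + 1 + 1 + 1 ≤ i by omega) with e | h'
        · refine Or.inl ?_
          rw [e, show k + 2 = k + 1 + 1 by rfl, Win.S_succ _ (k + 1)]
          linarith
        · exact p.far_below h2 h'
    · rw [sum_pair (by omega), hsub k hk, hsub (k + 1) hl, ← mul_add]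
      obtain ⟨δ, hδ⟩ : ∃ δ, δ = t / N - p.w.S (k + 1) := ⟨_, rfl⟩
      set φ := p.phase0 N - (t * p.A + p.Λ * N * (p.w.G (k + 1) + p.w.Γ (k + 1) * δ))
      have e1 : p.phase0 N - (t * p.A + p.Λ * N * p.w.Gat k (t / N)) =
          φ - p.Λ * p.w.γ k * N * δ ^ 2 / 2 := by
        simp only [φ, hδ, Win.Gat, Win.S_succ, Win.Γ_succ, Win.G_succ]; ring
      have e2 : p.phase0 N - (t * p.A + p.Λ * N * p.w.Gat (k + 1) (t / N)) =
          φ - p.Λ * p.w.γ (k + 1) * N * δ ^ 2 / 2 := by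
        simp only [φ, hδ, Win.Gat]; ring
      have h := p.pair_le hC hU hN hbig hl hk hq' (p.w.q_succ k) (δ := δ) (by linarith)
        (by linarith) φ
      rw [hmain, e1, e2]
      refine le_of_eq_of_le ?_ h
      have hs1 : p.w.S k = p.w.S (k + 1) - p.w.Δ := by rw [Win.S_succ]; ring
      have hs2 : p.w.S (k + 1 + 1) = p.w.S (k + 1) + p.w.Δ := Win.S_succ _ _
      rw [hs1, hs2, hδ]
      congr 6 <;> ring
  · -- the neighbour on the right
    refine (split {l, l + 1} (fun i hi => ?_) fun i hi => ?_).trans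
      ((add_le_add ?_ le_rfl).trans fin)
    · simp only [mem_insert, mem_singleton] at hi
      exact mem_range.2 (by omega)
    · simp only [mem_sdiff, mem_range, mem_insert, mem_singleton, not_or] at hi
      rcases (show i + 1 ≤ l ∨ l + 2 ≤ i by omega) with h | h
      · refine Or.inr ?_
        have := p.w.S_le h
        linarith [not_le.1 hside]
      · exact p.far_below h2 (by omega)
    · rw [sum_pair (by omega), hsub l hl, hsub (l + 1) hlM, ← mul_add, add_comm]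
      obtain ⟨δ, hδ⟩ : ∃ δ, δ = p.w.S (l + 1) - t / N := ⟨_, rfl⟩
      set φ := p.phase0 N - (t * p.A + p.Λ * N * (p.w.G (l + 1) - p.w.Γ (l + 1) * δ))
      have e1 : p.phase0 N - (t * p.A + p.Λ * N * p.w.Gat (l + 1) (t / N)) =
          φ - p.Λ * p.w.γ (l + 1) * N * δ ^ 2 / 2 := by
        simp only [φ, hδ, Win.Gat]; ring
      have e2 : p.phase0 N - (t * p.A + p.Λ * N * p.w.Gat l (t / N)) =
          φ - p.Λ * p.w.γ l * N * δ ^ 2 / 2 := by
        simp only [φ, hδ, Win.Gat, Win.S_succ, Win.Γ_succ, Win.G_succ]; ring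
      have hside' := not_le.1 hside
      have hSl : p.w.S (l + 1) = p.w.S l + p.w.Δ := Win.S_succ _ _
      have h := p.pair_le hC hU hN hbig hl hlM hq' (by rw [abs_sub_comm]; exact p.w.q_succ l)
        (δ := δ) (by linarith) (by linarith) φ
      rw [hmain, e1, e2, ← chirp_neg_neg _ ((p.w.S (l + 1) - t / N) / p.slope (l + 1 + 2)),
        ← chirp_neg_neg _ ((p.w.S l - t / N) / p.slope (l + 2))]
      refine le_of_eq_of_le ?_ h
      rw [Win.S_succ _ (l + 1), hδ, hSl]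
      congr 6 <;> ring

/-- The chain outside the window. -/
theorem chain_outside {C : ℝ} (hC : FresnelBound C) {N : ℕ} (hN : 0 < N) (t : ℝ)
    (h : t / N < p.w.s0 ∨ p.w.s0 + p.w.D ≤ t / N) :
    ‖∑ i ∈ range p.w.M, p.piece N t (i + 2)‖ ≤
      p.amax * (C / p.w.H) + 2 * p.w.M * C / (Real.sqrt N * p.w.Δ) := by
  have hM : 0 < p.w.M := by have := p.w.M_big; have := p.w.H_big; omega
  obtain ⟨l, hl, hlq, hF⟩ : ∃ l, l < p.w.M ∧ p.w.q l ≤ 1 / p.w.H ∧
      ∀ i ∈ range p.w.M \ {l},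
        t / N + p.w.Δ / 2 ≤ p.w.S i ∨ p.w.S (i + 1) ≤ t / N - p.w.Δ / 2 := by
    rcases h with h | h
    · refine ⟨0, hM, p.w.q_first, fun i hi => ?_⟩
      simp only [mem_sdiff, mem_range, mem_singleton] at hi
      exact p.far_below (l := 0) (by rwa [Win.S_zero]) (by omega)
    · refine ⟨p.w.M - 1, by omega, p.w.q_last, fun i hi => ?_⟩
      simp only [mem_sdiff, mem_range, mem_singleton] at hi
      exact p.far_above (l := p.w.M) (by rwa [Win.S_M]) (by omega)
  have h1 := p.sum_far hC hN t {l} (singleton_subset_iff.2 (mem_range.2 hl)) hF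
  rw [sum_singleton] at h1
  refine (norm_le_norm_sub_add _ (p.piece N t (l + 2))).trans ?_
  have h2 := (p.norm_piece_le hC hN t hl).trans
    (mul_le_mul_of_nonneg_left (mul_le_mul_of_nonneg_left hlq p.amax_pos.le) hC.pos.le)
  linarith [show C * (p.amax * (1 / (p.w.H : ℝ))) = p.amax * (C / p.w.H) by ring]

theorem stepAt_spec {s : ℝ} (h1 : p.w.s0 ≤ s) (h2 : s < p.w.s0 + p.w.D) :
    p.stepAt s < p.w.M ∧ p.w.S (p.stepAt s) ≤ s ∧ s < p.w.S (p.stepAt s + 1) := by
  obtain ⟨l, hl, a, b⟩ := p.w.exists_step h1 h2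
  have hΔ := p.w.Δ_pos
  have e : p.stepAt s = l := by
    rw [stepAt, Nat.floor_eq_iff (div_nonneg (by linarith) hΔ.le), le_div_iff₀ hΔ,
      div_lt_iff₀ hΔ]
    simp only [Win.S] at a b
    push_cast at b
    constructor <;> linarith
  rw [e]
  exact ⟨hl, a, b⟩

end Prof

/-- The estimate for one interval holds. -/
theorem estimate_stmt : EstimateStmt := by
  intro C U hC hU p N hN hbig t
  rw [p.coef_split, Prof.main]
  have hm : ‖p.piece N t 0 + p.piece N t 1 + p.piece N t (p.w.M + 2) + p.piece N t (p.w.M + 3)‖ ≤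
      4 * C * Real.sqrt (2 * p.w.ζ * p.Λ / p.w.η) := by
    have b := fun j hj hm => p.margin_piece hC hN t (j := j) hj hm
    have := b 0 (by unfold Prof.n; omega) (Or.inl (by omega))
    have := b 1 (by unfold Prof.n; omega) (Or.inl (by omega))
    have := b (p.w.M + 2) (by unfold Prof.n; omega) (Or.inr le_rfl)
    have := b (p.w.M + 3) (by unfold Prof.n; omega) (Or.inr (by omega))
    refine (norm_add₄_le).trans ?_
    linarith
  by_cases hin : p.w.s0 ≤ t / N ∧ t / N < p.w.s0 + p.w.D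
  · rw [if_pos hin]
    obtain ⟨hl, a, b⟩ := p.stepAt_spec hin.1 hin.2
    have h := p.chain_inside hC hU hN hbig t hl a b
    rw [add_sub_right_comm]
    refine (norm_add_le _ _).trans ((add_le_add h hm).trans (le_of_eq ?_))
    rw [Prof.err]; ring
  · rw [if_neg hin, sub_zero]
    have h := p.chain_outside hC hN t (by
      rw [not_and_or, not_le, not_lt] at hin
      exact hin)
    refine (norm_add_le _ _).trans ((add_le_add h hm).trans ?_)
    have hCp := hC.pos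
    have hr : (p.w.H : ℝ)⁻¹ ≤ (Real.sqrt p.w.H)⁻¹ := by
      refine inv_anti₀ (Real.sqrt_pos.2 p.w.H_pos) ?_
      rw [Real.sqrt_le_left p.w.H_pos.le]
      have : (1 : ℝ) ≤ p.w.H := by
        have := p.w.H_big
        exact_mod_cast (show 1 ≤ p.w.H by omega)
      nlinarith
    have h1 : C / p.w.H ≤ (16 * C + 2) / Real.sqrt p.w.H + 20 * C / U +
        48 * U ^ 3 / Real.sqrt p.w.H := by
      have : C / p.w.H ≤ (16 * C + 2) / Real.sqrt p.w.H := by
        rw [div_eq_mul_inv, div_eq_mul_inv]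
        exact mul_le_mul (by linarith) hr (by positivity) (by linarith)
      have : 0 ≤ 20 * C / U := by positivity
      have : 0 ≤ 48 * U ^ 3 / Real.sqrt p.w.H := by positivity
      linarith
    have h2 : 2 * (p.w.M : ℝ) * C / (Real.sqrt N * p.w.Δ) ≤
        4 * p.w.M * C / (Real.sqrt N * p.w.Δ) :=
      div_le_div_of_nonneg_right (by
        have : (0 : ℝ) ≤ p.w.M * C := mul_nonneg (Nat.cast_nonneg _) hCp.le
        linarith) (mul_nonneg (Real.sqrt_nonneg _) p.w.Δ_pos.le)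
    rw [Prof.err]
    linarith [mul_le_mul_of_nonneg_left h1 p.amax_pos.le]

end Vale.Agent.P110.UF
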