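import Mathlib
import Vale.Agent.P110.UF.Phase.Chirp

/-!
# P110: uniform bounds for chirp integrals

Integration by parts away from the stationary point, and the complete integral as the limit of
complex Gaussian integrals.
-/

open MeasureTheory Filter Set
open scoped Topology

namespace Vale.Agent.P110.UF.Fresnel

/-- The Gaussian integrand with complex coefficient. -/
noncomputable def gauss (β : ℂ) (x : ℝ) : ℂ := Complex.exp (-(β * (x : ℂ) ^ 2))

theorem continuous_gauss (β : ℂ) : Continuous (gauss β) := by unfold gauss; fun_prop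

theorem norm_gauss_le {β : ℂ} (hβ : 0 ≤ β.re) (x : ℝ) : ‖gauss β x‖ ≤ 1 := by
  rw [gauss, Complex.norm_exp, Real.exp_le_one_iff, Complex.neg_re, neg_nonpos,
    ← Complex.ofReal_pow, Complex.mul_re, Complex.ofReal_re, Complex.ofReal_im, mul_zero, sub_zero]
  exact mul_nonneg hβ (sq_nonneg x)

theorem gauss_int (β : ℂ) (a b : ℝ) : IntervalIntegrable (gauss β) volume a b :=
  (continuous_gauss β).intervalIntegrable a b

theorem tail_le {β : ℂ} (hβ : 0 ≤ β.re) (h0 : β ≠ 0) {R a b : ℝ} (hR : 0 < R) (ha : R ≤ a)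
    (hb : R ≤ b) : ‖∫ x in a..b, gauss β x‖ ≤ 1 / (‖β‖ * R) := by
  wlog hab : a ≤ b generalizing a b
  · rw [intervalIntegral.integral_symm, norm_neg]
    exact this hb ha (le_of_not_ge hab)
  have hpos : ∀ x ∈ uIcc a b, 0 < x := fun x hx => by
    rw [uIcc_of_le hab] at hx; linarith [hx.1]
  set F : ℝ → ℂ := fun x => -(gauss β x) / (2 * β * (x : ℂ)) with hF
  set G : ℝ → ℂ := fun x => gauss β x / (2 * β * (x : ℂ) ^ 2) with hG
  have hderiv : ∀ x ∈ uIcc a b, HasDerivAt F (gauss β x + G x) x := by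
    intro x hx
    have hx0 : (x : ℂ) ≠ 0 := by exact_mod_cast (hpos x hx).ne'
    have hid : HasDerivAt (fun y : ℂ => y) 1 (x : ℂ) := hasDerivAt_id _
    have h1 : HasDerivAt (fun y : ℂ => -Complex.exp (-(β * y ^ 2)) / (2 * β * y))
        ((-(Complex.exp (-(β * (x : ℂ) ^ 2)) * -(β * (2 * (x : ℂ) ^ (2 - 1) * 1))) *
          (2 * β * (x : ℂ)) - -Complex.exp (-(β * (x : ℂ) ^ 2)) * (2 * β * 1)) /
          (2 * β * (x : ℂ)) ^ 2) (x : ℂ) :=
      ((((hid.pow 2).const_mul β).neg.cexp).neg).div (hid.const_mul (2 * β)) (by simp [h0, hx0])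
    convert h1.comp_ofReal using 1
    · rfl
    · simp only [hG, gauss]
      field_simp
      ring
  have hGc : ContinuousOn G (uIcc a b) := by
    refine (continuous_gauss β).continuousOn.div (by fun_prop) fun x hx => ?_
    have : (x : ℂ) ≠ 0 := by exact_mod_cast (hpos x hx).ne'
    simp [h0, this]
  have hGi : IntervalIntegrable G volume a b := hGc.intervalIntegrable
  have key := intervalIntegral.integral_eq_sub_of_hasDerivAt hderiv ((gauss_int β a b).add hGi)
  rw [intervalIntegral.integral_add (gauss_int β a b) hGi, ← eq_sub_iff_add_eq] at key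
  have hβn : 0 < ‖β‖ := norm_pos_iff.2 h0
  have ha0 : 0 < a := hR.trans_le ha
  have hb0 : 0 < b := hR.trans_le hb
  have hFb : ∀ x, 0 < x → ‖F x‖ ≤ 1 / (2 * ‖β‖) * (1 / x) := fun x hx => by
    rw [hF, norm_div, norm_neg, norm_mul, norm_mul, Complex.norm_real, Real.norm_of_nonneg hx.le,
      Complex.norm_ofNat, div_mul_div_comm, one_mul]
    exact div_le_div_of_nonneg_right (norm_gauss_le hβ x) (by positivity)
  have hGb : ‖∫ x in a..b, G x‖ ≤ 1 / (2 * ‖β‖) * (1 / a - 1 / b) := by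
    have hc : ContinuousOn (fun x : ℝ => 1 / (2 * ‖β‖) * (x ^ 2)⁻¹) (uIcc a b) :=
      continuousOn_const.mul ((continuous_pow 2).continuousOn.inv₀ fun x hx =>
        (pow_pos (hpos x hx) 2).ne')
    have hd : ∀ x ∈ uIcc a b, HasDerivAt (fun y : ℝ => -(1 / (2 * ‖β‖) * y⁻¹))
        (1 / (2 * ‖β‖) * (x ^ 2)⁻¹) x := fun x hx => by
      have h := ((hasDerivAt_inv (hpos x hx).ne').const_mul (1 / (2 * ‖β‖))).neg
      exact h.congr_deriv (by ring)
    refine (intervalIntegral.norm_integral_le_of_norm_le hab (ae_of_all _ fun x hx => ?_)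
      hc.intervalIntegrable).trans (le_of_eq ?_)
    · have hx0 : 0 < x := ha0.trans hx.1
      rw [hG, norm_div, norm_mul, norm_mul, norm_pow, Complex.norm_real, Real.norm_eq_abs, sq_abs,
        Complex.norm_ofNat, div_mul_eq_mul_div, one_mul, inv_eq_one_div, div_div]
      rw [mul_comm (x ^ 2)]
      exact div_le_div_of_nonneg_right (norm_gauss_le hβ x) (by positivity)
    · rw [intervalIntegral.integral_eq_sub_of_hasDerivAt hd hc.intervalIntegrable]
      ring
  rw [key]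
  calc ‖F b - F a - ∫ x in a..b, G x‖ ≤ ‖F b‖ + ‖F a‖ + ‖∫ x in a..b, G x‖ :=
        (norm_sub_le _ _).trans (by linarith [norm_sub_le (F b) (F a)])
    _ ≤ 1 / (2 * ‖β‖) * (1 / b) + 1 / (2 * ‖β‖) * (1 / a) + 1 / (2 * ‖β‖) * (1 / a - 1 / b) := by
        gcongr
        · exact hFb b hb0
        · exact hFb a ha0
    _ = 1 / (‖β‖ * a) := by field_simp; ring
    _ ≤ 1 / (‖β‖ * R) := by gcongr

theorem gauss_neg (β : ℂ) (a b : ℝ) :
    ∫ x in (-b)..(-a), gauss β x = ∫ x in a..b, gauss β x := by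
  rw [← intervalIntegral.integral_comp_neg (gauss β)]
  simp [gauss]

theorem full_le {β : ℂ} (hβ : 0 < β.re) {X : ℝ} (hX : 0 < X) :
    ‖(∫ x in (-X)..X, gauss β x) - ((Real.pi : ℂ) / β) ^ (1 / 2 : ℂ)‖ ≤ 2 / (‖β‖ * X) := by
  have h0 : β ≠ 0 := fun h => by simp [h] at hβ
  have hint : Integrable (gauss β) := by
    refine (integrable_cexp_neg_mul_sq hβ).congr (ae_of_all _ fun x => ?_)
    simp [gauss, neg_mul]
  have hlim : Tendsto (fun Y : ℝ => ∫ x in (-Y)..Y, gauss β x) atTop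
      (𝓝 (((Real.pi : ℂ) / β) ^ (1 / 2 : ℂ))) := by
    rw [← integral_gaussian_complex hβ, show (∫ x : ℝ, Complex.exp (-β * (x : ℂ) ^ 2)) =
      ∫ x : ℝ, gauss β x by simp only [gauss, neg_mul]]
    exact MeasureTheory.intervalIntegral_tendsto_integral hint tendsto_neg_atTop_atBot tendsto_id
  refine le_of_tendsto ((tendsto_const_nhds.sub hlim).norm) ?_
  filter_upwards [eventually_ge_atTop X] with Y hY
  rw [intervalIntegral.integral_interval_sub_interval_comm (gauss_int β _ _) (gauss_int β _ _)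
    (gauss_int β _ _)]
  refine (norm_sub_le _ _).trans ?_
  have h1 : ‖∫ x in (-X)..(-Y), gauss β x‖ ≤ 1 / (‖β‖ * X) := by
    rw [gauss_neg]; exact tail_le hβ.le h0 hX hY le_rfl
  have h2 : ‖∫ x in X..Y, gauss β x‖ ≤ 1 / (‖β‖ * X) := tail_le hβ.le h0 hX le_rfl hY
  calc _ ≤ 1 / (‖β‖ * X) + 1 / (‖β‖ * X) := add_le_add h1 h2
    _ = _ := by ring

/-- The coefficient of the chirp as a Gaussian. -/
noncomputable def beta (σ : ℝ) : ℂ := -((Real.pi * σ : ℝ) : ℂ) * Complex.I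

theorem beta_re (σ : ℝ) : (beta σ).re = 0 := by simp [beta]

theorem beta_norm (σ : ℝ) : ‖beta σ‖ = Real.pi * |σ| := by
  simp [beta, abs_of_pos Real.pi_pos]

theorem beta_ne {σ : ℝ} (hσ : σ ≠ 0) : beta σ ≠ 0 := by
  rw [← norm_ne_zero_iff, beta_norm]; positivity

theorem chirp_eq (σ a b : ℝ) : chirp σ a b = ∫ x in a..b, gauss (beta σ) x := by
  refine intervalIntegral.integral_congr fun x _ => ?_
  rw [ex, gauss, beta]
  congr 1
  push_cast
  ring

theorem root_eq {σ : ℝ} (hσ : σ ≠ 0) :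
    ((Real.pi : ℂ) / beta σ) ^ (1 / 2 : ℂ) = kappa σ / (Real.sqrt |σ| : ℝ) := by
  have hσc : (σ : ℂ) ≠ 0 := by exact_mod_cast hσ
  have hpi : (Real.pi : ℂ) ≠ 0 := by exact_mod_cast Real.pi_ne_zero
  have e : (Real.pi : ℂ) / beta σ = (σ : ℂ)⁻¹ * Complex.I := by
    rw [beta]; push_cast; field_simp; simp
  have hne : (Real.pi : ℂ) / beta σ ≠ 0 := div_ne_zero hpi (beta_ne hσ)
  have hs : ((Real.sqrt |σ| : ℝ) : ℂ) ≠ 0 := by
    exact_mod_cast (Real.sqrt_pos.2 (abs_pos.2 hσ)).ne'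
  have key : Complex.exp (((-(Real.log |σ|) / 2 : ℝ) : ℂ)) * ((Real.sqrt |σ| : ℝ) : ℂ) = 1 := by
    rw [← Complex.ofReal_exp, ← Complex.ofReal_mul, ← Complex.ofReal_one]
    congr 1
    rw [Real.exp_half, Real.exp_neg, Real.exp_log (abs_pos.2 hσ), Real.sqrt_inv,
      inv_mul_cancel₀ (Real.sqrt_pos.2 (abs_pos.2 hσ)).ne']
  rw [Complex.cpow_def_of_ne_zero hne, e, eq_div_iff hs]
  rcases lt_or_gt_of_ne hσ with hneg | hpos
  · have e2 : (σ : ℂ)⁻¹ * Complex.I = ((|σ|⁻¹ : ℝ) : ℂ) * -Complex.I := by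
      rw [abs_of_neg hneg]; push_cast; rw [inv_neg]; ring
    rw [e2, Complex.log_ofReal_mul (inv_pos.2 (abs_pos.2 hσ)) (by simp), Complex.log_neg_I,
      Real.log_inv, add_mul, Complex.exp_add, mul_right_comm]
    rw [show ((-Real.log |σ| : ℝ) : ℂ) * (1 / 2) = ((-(Real.log |σ|) / 2 : ℝ) : ℂ) by
      push_cast; ring, key, one_mul, kappa, if_neg (not_lt.2 hneg.le), ex]
    congr 1
    push_cast
    ring
  · have e2 : (σ : ℂ)⁻¹ * Complex.I = ((|σ|⁻¹ : ℝ) : ℂ) * Complex.I := by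
      rw [abs_of_pos hpos]; push_cast; rfl
    rw [e2, Complex.log_ofReal_mul (inv_pos.2 (abs_pos.2 hσ)) (by simp), Complex.log_I,
      Real.log_inv, add_mul, Complex.exp_add, mul_right_comm]
    rw [show ((-Real.log |σ| : ℝ) : ℂ) * (1 / 2) = ((-(Real.log |σ|) / 2 : ℝ) : ℂ) by
      push_cast; ring, key, one_mul, kappa, if_pos hpos, ex]
    congr 1
    push_cast
    ring

theorem full_chirp {σ : ℝ} (hσ : σ ≠ 0) {X : ℝ} (hX : 0 < X) :
    ‖chirp σ (-X) X - kappa σ / (Real.sqrt |σ| : ℝ)‖ ≤ 2 / (Real.pi * |σ| * X) := by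
  set β : ℝ → ℂ := fun t => (t : ℂ) + beta σ with hβ
  have hc1 : Continuous fun t : ℝ => ∫ x in (-X)..X, gauss (β t) x := by
    refine intervalIntegral.continuous_parametric_intervalIntegral_of_continuous' ?_ _ _
    simp only [gauss, hβ, Function.uncurry_def]
    fun_prop
  have h0 : β 0 = beta σ := by simp [hβ]
  have hslit : (Real.pi : ℂ) / β 0 ∈ Complex.slitPlane := by
    refine Or.inr ?_
    rw [h0, Complex.div_im, beta_re]
    simp [beta, Real.pi_ne_zero, hσ]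
  have hb : β 0 ≠ 0 := h0 ▸ beta_ne hσ
  have hc2 : ContinuousAt (fun t : ℝ => ((Real.pi : ℂ) / β t) ^ (1 / 2 : ℂ)) 0 := by
    have hd : ContinuousAt (fun t : ℝ => (Real.pi : ℂ) / β t) 0 :=
      continuousAt_const.div (by simp only [hβ]; fun_prop) hb
    exact hd.cpow continuousAt_const hslit
  have hc3 : ContinuousAt (fun t : ℝ => 2 / (‖β t‖ * X)) 0 :=
    continuousAt_const.div (by simp only [hβ]; fun_prop) (by positivity)
  have hlim : Tendsto (fun t : ℝ => ‖(∫ x in (-X)..X, gauss (β t) x) -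
      ((Real.pi : ℂ) / β t) ^ (1 / 2 : ℂ)‖) (𝓝[>] 0)
      (𝓝 ‖chirp σ (-X) X - kappa σ / (Real.sqrt |σ| : ℝ)‖) := by
    have h := (hc1.continuousAt.sub hc2).norm.tendsto.mono_left
      (nhdsWithin_le_nhds (s := Ioi (0 : ℝ)) (a := 0))
    simp only [Pi.sub_apply, h0, root_eq hσ, ← chirp_eq] at h
    exact h
  have hlim2 := hc3.tendsto.mono_left (nhdsWithin_le_nhds (s := Ioi (0 : ℝ)) (a := 0))
  simp only [h0, beta_norm] at hlim2
  refine le_of_tendsto_of_tendsto hlim hlim2 ?_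
  filter_upwards [self_mem_nhdsWithin] with t ht
  exact full_le (by simpa [hβ, beta_re] using ht) hX

theorem chirp_tail {σ : ℝ} (hσ : σ ≠ 0) {R a b : ℝ} (hR : 0 < R) (ha : R ≤ a) (hb : R ≤ b) :
    ‖chirp σ a b‖ ≤ 1 / (|σ| * R) := by
  rw [chirp_eq]
  refine (tail_le (beta_re σ).ge (beta_ne hσ) hR ha hb).trans ?_
  rw [beta_norm]
  refine div_le_div_of_nonneg_left zero_le_one (by positivity) ?_
  have : 1 ≤ Real.pi := by linarith [Real.pi_gt_three]
  nlinarith [mul_pos (abs_pos.2 hσ) hR]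

theorem chirp_zero_le {σ : ℝ} (hσ : σ ≠ 0) (x : ℝ) : ‖chirp σ 0 x‖ ≤ 2 / Real.sqrt |σ| := by
  wlog hx : 0 ≤ x generalizing x
  · rw [← chirp_neg_neg σ 0 x, neg_zero, chirp_swap, norm_neg]
    exact this (-x) (by linarith)
  have hs : 0 < Real.sqrt |σ| := Real.sqrt_pos.2 (abs_pos.2 hσ)
  set r := 1 / Real.sqrt |σ| with hr
  have hr0 : 0 < r := one_div_pos.2 hs
  have hshort : ∀ y, 0 ≤ y → y ≤ r → ‖chirp σ 0 y‖ ≤ r := fun y h1 h2 => by
    refine (intervalIntegral.norm_integral_le_of_norm_le_const (C := 1)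
      fun z _ => (norm_ex _).le).trans ?_
    rw [sub_zero, abs_of_nonneg h1, one_mul]
    exact h2
  have h2r : 2 / Real.sqrt |σ| = r + r := by rw [hr]; ring
  rw [h2r]
  rcases le_total x r with h | h
  · linarith [hshort x hx h]
  · rw [← chirp_add σ 0 r x]
    refine (norm_add_le _ _).trans (add_le_add (hshort r hr0.le le_rfl) ?_)
    refine (chirp_tail hσ hr0 le_rfl h).trans (le_of_eq ?_)
    rw [hr]
    field_simp
    rw [Real.sq_sqrt (abs_nonneg σ)]

end Fresnel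

open Fresnel in
/-- Uniform bounds for chirp integrals. -/
theorem fresnel_stmt : FresnelStmt := by
  refine ⟨4, by norm_num, fun σ hσ => ⟨fun a b => ?_, fun R a b hR ha hb => ?_,
    fun R a b hR ha hb => ?_, fun R a b hR ha hb => ?_⟩⟩
  · rw [← chirp_add σ a 0 b, chirp_swap σ 0 a]
    refine (norm_add_le _ _).trans ?_
    rw [norm_neg]
    calc _ ≤ 2 / Real.sqrt |σ| + 2 / Real.sqrt |σ| :=
          add_le_add (chirp_zero_le hσ a) (chirp_zero_le hσ b)
      _ = _ := by ring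
  · refine (chirp_tail hσ hR ha hb).trans ?_
    gcongr
    norm_num
  · rw [← chirp_neg_neg]
    refine (chirp_tail hσ hR (by linarith) (by linarith)).trans ?_
    gcongr
    norm_num
  · rw [← chirp_add σ a (-R) b, ← chirp_add σ (-R) R b]
    have h1 : ‖chirp σ a (-R)‖ ≤ 1 / (|σ| * R) := by
      rw [← chirp_neg_neg, neg_neg]; exact chirp_tail hσ hR le_rfl (by linarith)
    have h2 : ‖chirp σ R b‖ ≤ 1 / (|σ| * R) := chirp_tail hσ hR le_rfl hb
    have h3 : ‖chirp σ (-R) R - kappa σ / (Real.sqrt |σ| : ℝ)‖ ≤ 2 / (|σ| * R) := by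
      refine (full_chirp hσ hR).trans (div_le_div_of_nonneg_left (by norm_num) (by positivity) ?_)
      have : 1 ≤ Real.pi := by linarith [Real.pi_gt_three]
      nlinarith [mul_pos (abs_pos.2 hσ) hR]
    rw [show chirp σ a (-R) + (chirp σ (-R) R + chirp σ R b) - kappa σ / (Real.sqrt |σ| : ℝ) =
      chirp σ a (-R) + (chirp σ (-R) R - kappa σ / (Real.sqrt |σ| : ℝ)) + chirp σ R b by ring]
    refine (norm_add₃_le).trans ?_
    calc _ ≤ 1 / (|σ| * R) + 2 / (|σ| * R) + 1 / (|σ| * R) := by gcongr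
      _ = 4 / (|σ| * R) := by ring

end Vale.Agent.P110.UF
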