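import Mathlib
import Vale.Agent.P110.UF.Phase.GlueDefs
import Vale.Agent.P110.UF.Trunc

/-!
# P110: gluing the group delays of the intervals

The delay is `top + ∑ i, (g i (clamp u) - top)` with `u` the distance from `x` to the integers,
clamped to the `i`th interval: at most one summand is nonzero.
-/

open Finset MeasureTheory
open scoped ComplexConjugate

namespace Vale.Agent.P110.UF

namespace Glue

/-- Distance to the integers. -/
noncomputable def zdist (x : ℝ) : ℝ := |x - round x|

lemma zdist_le (x : ℝ) (n : ℤ) : zdist x ≤ |x - n| := round_le x n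

lemma zdist_lip (x y : ℝ) : |zdist x - zdist y| ≤ |x - y| := by
  have h : ∀ a b : ℝ, zdist a - zdist b ≤ |a - b| := fun a b => by
    have h1 := zdist_le a (round b)
    have h2 := abs_sub_le a b (round b : ℝ)
    unfold zdist at h1 ⊢
    linarith
  exact abs_le.2 ⟨by linarith [h y x, abs_sub_comm x y], h x y⟩

lemma continuous_zdist : Continuous zdist :=
  (LipschitzWith.of_dist_le_mul (K := 1) fun x y => by
    rw [NNReal.coe_one, one_mul, Real.dist_eq, Real.dist_eq]
    exact zdist_lip x y).continuous

lemma zdist_neg (x : ℝ) : zdist (-x) = zdist x := by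
  have h : ∀ a : ℝ, zdist (-a) ≤ zdist a := fun a => by
    have h1 := zdist_le (-a) (-round a)
    rw [Int.cast_neg, ← neg_add', abs_neg, ← sub_eq_add_neg] at h1
    exact h1
  exact le_antisymm (h x) (le_trans (le_of_eq (by rw [neg_neg])) (h (-x)))

lemma zdist_add_one (x : ℝ) : zdist (x + 1) = zdist x := by
  simp [zdist, round_add_one]

lemma zdist_of_mem (x : ℝ) (h0 : 0 ≤ x) (h1 : x ≤ 1 / 2) : zdist x = x := by
  refine le_antisymm ?_ ?_
  · have := zdist_le x 0
    simpa [abs_of_nonneg h0] using this
  · unfold zdist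
    rcases le_or_gt (round x) 0 with h | h
    · have : ((round x : ℤ) : ℝ) ≤ 0 := by exact_mod_cast h
      exact le_trans (by linarith) (le_abs_self _)
    · have : (1 : ℝ) ≤ ((round x : ℤ) : ℝ) := by exact_mod_cast h
      exact le_trans (by linarith) (neg_le_abs _)

lemma clamp_lip (a b u v : ℝ) : |max a (min u b) - max a (min v b)| ≤ |u - v| := by
  refine (abs_max_sub_max_le_max _ _ _ _).trans ?_
  rw [sub_self, abs_zero]
  refine max_le (abs_nonneg _) ((abs_min_sub_min_le_max _ _ _ _).trans ?_)
  rw [sub_self, abs_zero]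
  exact max_le le_rfl (abs_nonneg _)

section Data

variable {L I : ℕ} {st len : Fin I → ℕ}

/-- Distinct intervals do not overlap. -/
lemma sep (hlen : ∀ i, 0 < len i) (hin : ∀ i, 2 * (st i + len i) ≤ L)
    (hcov : ∀ a : ℕ, 2 * a < L → ∃! i, st i ≤ a ∧ a < st i + len i) {i j : Fin I} (h : i ≠ j) :
    st i + len i ≤ st j ∨ st j + len j ≤ st i := by
  by_contra hc
  push Not at hc
  have := hlen i
  have := hlen j
  have := hin i
  refine h (ExistsUnique.unique (hcov (max (st i) (st j)) (by omega)) ⟨?_, ?_⟩ ⟨?_, ?_⟩) <;> omega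

/-- Every junction is the end of an interval. -/
lemma prev (hin : ∀ i, 2 * (st i + len i) ≤ L)
    (hcov : ∀ a : ℕ, 2 * a < L → ∃! i, st i ≤ a ∧ a < st i + len i) {a : ℕ}
    (ha : (∃ i, st i = a) ∨ 2 * a = L) (h0 : 0 < a) (hlen : ∀ i, 0 < len i) :
    ∃ j, st j + len j = a ∧ st j < a := by
  have hlt : 2 * (a - 1) < L := by
    rcases ha with ⟨i, rfl⟩ | ha
    · have := hin i; have := hlen i; omega
    · omega
  obtain ⟨j, ⟨hj1, hj2⟩, -⟩ := hcov (a - 1) hlt
  refine ⟨j, ?_, by omega⟩
  rcases ha with ⟨i, rfl⟩ | ha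
  · by_contra hne
    have hij : i ≠ j := by rintro rfl; omega
    have := hlen i
    rcases sep hlen hin hcov hij with h | h <;> omega
  · have := hin j; omega

/-- An additive quantity at a junction is the sum over the intervals before it. -/
lemma chain (hlen : ∀ i, 0 < len i) (hin : ∀ i, 2 * (st i + len i) ≤ L)
    (hcov : ∀ a : ℕ, 2 * a < L → ∃! i, st i ≤ a ∧ a < st i + len i)
    {R : Type*} [AddCommMonoid R] (F : ℕ → R) (f : Fin I → R) (h0 : F 0 = 0)
    (hstep : ∀ j, F (st j + len j) = F (st j) + f j) :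
    ∀ a : ℕ, (∃ i, st i = a) ∨ 2 * a = L →
      F a = ∑ i ∈ univ.filter (fun i => st i + len i ≤ a), f i := by
  intro a
  induction a using Nat.strong_induction_on with
  | _ a ih =>
    intro ha
    rcases Nat.eq_zero_or_pos a with rfl | hpos
    · rw [h0, filter_eq_empty_iff.2, sum_empty]
      intro i _ h
      have := hlen i
      omega
    · obtain ⟨j, hj, hjlt⟩ := prev hin hcov ha hpos hlen
      have e : univ.filter (fun i => st i + len i ≤ a) =
          insert j (univ.filter fun i => st i + len i ≤ st j) := by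
        ext i
        simp only [mem_filter, mem_univ, true_and, mem_insert]
        constructor
        · intro h
          by_cases hij : i = j
          · exact Or.inl hij
          · have := hlen i
            rcases sep hlen hin hcov hij with h' | h'
            · exact Or.inr h'
            · omega
        · rintro (rfl | h) <;> omega
      have hnot : j ∉ univ.filter (fun i => st i + len i ≤ st j) := by
        simp only [mem_filter, mem_univ, true_and]
        have := hlen j
        omega
      rw [e, sum_insert hnot, ← ih (st j) hjlt (Or.inl ⟨j, rfl⟩), ← hj, hstep, add_comm]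

lemma chain_half (hlen : ∀ i, 0 < len i) (hin : ∀ i, 2 * (st i + len i) ≤ L)
    (hcov : ∀ a : ℕ, 2 * a < L → ∃! i, st i ≤ a ∧ a < st i + len i)
    {R : Type*} [AddCommMonoid R] (F : ℕ → R) (f : Fin I → R) (h0 : F 0 = 0)
    (hstep : ∀ j, F (st j + len j) = F (st j) + f j) (a : ℕ) (ha : 2 * a = L) :
    F a = ∑ i, f i := by
  rw [chain hlen hin hcov F f h0 hstep a (Or.inr ha), filter_true_of_mem]
  intro i _
  have := hin i
  omega

end Data

lemma integral_ex_even {f : ℝ → ℂ} (hf : Continuous f) (hc : ∀ x, f (-x) = conj (f x)) :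
    (∫ x in (-(1 / 2 : ℝ))..(1 / 2), f x).re = 2 * (∫ x in (0 : ℝ)..(1 / 2), f x).re := by
  rw [← intervalIntegral.integral_add_adjacent_intervals (b := 0) (hf.intervalIntegrable _ _)
    (hf.intervalIntegrable _ _), Complex.add_re]
  have h := intervalIntegral.integral_comp_neg (a := (0 : ℝ)) (b := 1 / 2) f
  rw [neg_zero] at h
  rw [← h]
  simp only [hc]
  rw [intervalIntegral.intervalIntegral_conj, Complex.conj_re, two_mul]

end Glue

open Vale.Agent.P110.UF.Glue in
/-- The glued phase. -/
theorem glue_stmt : GlueStmt := by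
  intro L I st len hL hdvd hlen hin hcov η M top N g hη htop hM hlip hrange hends hint
  have hLR : (0 : ℝ) < L := by exact_mod_cast hL
  set A : Fin I → ℝ := fun i => (st i : ℝ) / L with hA
  set B : Fin I → ℝ := fun i => ((st i : ℝ) + len i) / L with hB
  set τ : ℝ → ℝ := fun x => top + ∑ i, (g i (max (A i) (min (zdist x) (B i))) - top) with hτ
  have hA0 : ∀ i, 0 ≤ A i := fun i => by positivity
  have hAB : ∀ i, A i ≤ B i := fun i => by
    simp only [hA, hB]
    gcongr
    exact le_add_of_nonneg_right (Nat.cast_nonneg _)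
  have hB1 : ∀ i, B i ≤ 1 / 2 := fun i => by
    simp only [hB]
    rw [div_le_iff₀ hLR]
    have : 2 * ((st i : ℝ) + len i) ≤ L := by exact_mod_cast hin i
    linarith
  have hzero : ∀ i u, u ≤ A i ∨ B i ≤ u → g i (max (A i) (min u (B i))) = top := by
    intro i u h
    rcases h with h | h
    · rw [max_eq_left ((min_le_left _ _).trans h)]
      exact (hends i).1
    · rw [min_eq_right h, max_eq_right (hAB i)]
      exact (hends i).2
  have hmono : ∀ p q : ℕ, p ≤ q → (p : ℝ) / L ≤ (q : ℝ) / L := fun p q h => by gcongr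
  have hother : ∀ i j, i ≠ j → ∀ u, A i ≤ u → u ≤ B i →
      g j (max (A j) (min u (B j))) = top := by
    intro i j hij u h1 h2
    refine hzero j u ?_
    rcases sep hlen hin hcov hij with h | h
    · refine Or.inl (h2.trans ?_)
      simpa [hA, hB] using hmono _ _ h
    · refine Or.inr (le_trans ?_ h1)
      simpa [hA, hB] using hmono _ _ h
  have hτcont : Continuous τ := by
    have hg : ∀ i, Continuous (g i) := fun i =>
      (LipschitzWith.of_dist_le_mul (K := ⟨M, hM⟩) fun x y => by
        rw [Real.dist_eq, Real.dist_eq]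
        exact hlip i x y).continuous
    exact continuous_const.add (continuous_finsetSum _ fun i _ =>
      ((hg i).comp (continuous_const.max (continuous_zdist.min continuous_const))).sub
        continuous_const)
  set Φ : ℝ → ℝ := fun x => ∫ y in (0 : ℝ)..x, τ y with hΦ
  have hint' : ∀ a b : ℝ, IntervalIntegrable τ volume a b := fun a b => hτcont.intervalIntegrable a b
  have hτneg : ∀ x, τ (-x) = τ x := fun x => by simp only [hτ, zdist_neg]
  have hodd : ∀ x, Φ (-x) = -Φ x := by
    intro x
    have h := intervalIntegral.integral_comp_neg (a := (0 : ℝ)) (b := x) τ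
    rw [neg_zero] at h
    simp only [hτneg] at h
    simp only [hΦ]
    rw [intervalIntegral.integral_symm (-x) 0, ← h]
  have hon : ∀ i, ∀ x, A i ≤ x → x ≤ B i → Φ x = Φ (A i) + ∫ y in (A i)..x, g i y := by
    intro i x h1 h2
    have heq : ∀ y ∈ Set.uIcc (A i) x, τ y = g i y := by
      intro y hy
      rw [Set.uIcc_of_le h1] at hy
      have hz := zdist_of_mem y ((hA0 i).trans hy.1) ((hy.2.trans h2).trans (hB1 i))
      simp only [hτ, hz]
      rw [sum_eq_single i]
      · rw [min_eq_left (hy.2.trans h2), max_eq_right hy.1]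
        ring
      · intro j _ hj
        rw [hother i j (Ne.symm hj) y hy.1 (hy.2.trans h2), sub_self]
      · intro h
        exact absurd (mem_univ i) h
    simp only [hΦ]
    rw [← intervalIntegral.integral_congr heq,
      intervalIntegral.integral_add_adjacent_intervals (hint' _ _) (hint' _ _)]
  choose z hz using hint
  have hstep : ∀ j, (N : ℝ) * Φ (((st j + len j : ℕ) : ℝ) / L) =
      (N : ℝ) * Φ ((st j : ℝ) / L) + z j := by
    intro j
    rw [← hz j, ← mul_add, ← hon j (B j) (hAB j) le_rfl]
    simp [hB]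
  have hjunc : ∀ a : ℕ, (∃ i, st i = a) ∨ 2 * a = L →
      ∃ n : ℤ, (N : ℝ) * Φ ((a : ℝ) / L) = n := fun a ha =>
    ⟨∑ i ∈ univ.filter (fun i => st i + len i ≤ a), z i, by
      rw [chain hlen hin hcov (fun a : ℕ => (N : ℝ) * Φ ((a : ℝ) / L)) (fun i => (z i : ℝ))
        (by simp [hΦ]) hstep a ha]
      push_cast
      rfl⟩
  obtain ⟨h', hh'⟩ := hdvd
  have hhalf : (h' : ℝ) / L = 1 / 2 := by
    rw [div_eq_iff hLR.ne', hh']
    push_cast
    ring
  obtain ⟨n, hn⟩ := hjunc h' (Or.inr hh'.symm)
  rw [hhalf] at hn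
  have hderiv : ∀ x, HasDerivAt Φ (τ x) x := fun x => hτcont.integral_hasStrictDerivAt 0 x |>.hasDerivAt
  have hP : Phase η ((I + 1 : ℕ) * M) N Φ τ := by
    refine ⟨hderiv, fun x => ?_, hodd, fun x => ?_, fun x y => ?_⟩
    · have hper : Function.Periodic τ 1 := fun y => by simp only [hτ, zdist_add_one]
      have h1 : Φ (x + 1) = Φ x + ∫ y in x..(x + 1), τ y :=
        (intervalIntegral.integral_add_adjacent_intervals (hint' _ _) (hint' _ _)).symm
      have h2 : ∫ y in x..(x + 1), τ y = ∫ y in (-(1 / 2 : ℝ))..(1 / 2), τ y := by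
        rw [hper.intervalIntegral_add_eq x (-(1 / 2))]
        norm_num
      have h3 : ∫ y in (-(1 / 2 : ℝ))..(1 / 2), τ y = Φ (1 / 2) - Φ (-(1 / 2)) :=
        (intervalIntegral.integral_interval_sub_left (hint' _ _) (hint' _ _)).symm
      rw [hodd] at h3
      rw [h1, h2, h3, show (N : ℝ) * (Φ x + (Φ (1 / 2) - -Φ (1 / 2))) =
        N * Φ x + ((2 * n : ℤ) : ℝ) by push_cast; rw [← hn]; ring, Trunc.ex_add, Trunc.ex_int,
        mul_one]
    · by_cases h : ∃ i, A i < zdist x ∧ zdist x < B i
      · obtain ⟨i, h1, h2⟩ := h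
        simp only [hτ]
        rw [sum_eq_single i]
        · rw [min_eq_left h2.le, max_eq_right h1.le, add_sub_cancel]
          exact hrange i _
        · intro j _ hj
          rw [hother i j (Ne.symm hj) _ h1.le h2.le, sub_self]
        · intro h
          exact absurd (mem_univ i) h
      · push Not at h
        simp only [hτ]
        rw [sum_eq_zero fun i _ => by
          rw [hzero i _ ?_, sub_self]
          by_cases hc : A i < zdist x
          · exact Or.inr (h i hc)
          · exact Or.inl (not_lt.1 hc), add_zero]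
        exact ⟨hη, htop⟩
    · simp only [hτ, add_sub_add_left_eq_sub, ← sum_sub_distrib, sub_sub_sub_cancel_right]
      refine (abs_sum_le_sum_abs _ _).trans ?_
      refine (sum_le_sum fun i _ => (hlip i _ _).trans (mul_le_mul_of_nonneg_left
        ((clamp_lip _ _ _ _).trans (zdist_lip x y)) hM)).trans ?_
      simp only [sum_const, card_univ, Fintype.card_fin, nsmul_eq_mul]
      push_cast
      nlinarith [mul_nonneg hM (abs_nonneg (x - y))]
  refine ⟨Φ, τ, hP, fun t => ?_⟩
  set f : ℝ → ℂ := fun x => ex (N * Φ x - t * x) with hf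
  have hfc : Continuous f :=
    Trunc.continuous_ex.comp ((continuous_const.mul (continuous_iff_continuousAt.2 fun x =>
      (hderiv x).continuousAt)).sub (continuous_const.mul continuous_id))
  have hconj : ∀ x, f (-x) = conj (f x) := fun x => by
    simp only [hf, Trunc.ex_conj, hodd]
    congr 1
    ring
  rw [phaseCoef, integral_ex_even hfc hconj, ← hhalf]
  congr 2
  have hsum := chain_half hlen hin hcov (fun a : ℕ => ∫ x in (0 : ℝ)..((a : ℝ) / L), f x)
    (fun i => ∫ x in (A i)..(B i), f x) (by simp) (fun j => by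
      rw [intervalIntegral.integral_add_adjacent_intervals (hfc.intervalIntegrable _ _)
        (hfc.intervalIntegrable _ _)]
      simp [hB]) h' hh'.symm
  rw [hsum]
  congr 1
  refine sum_congr rfl fun i _ => intervalIntegral.integral_congr fun x hx => ?_
  rw [Set.uIcc_of_le (hAB i)] at hx
  obtain ⟨n', hn'⟩ := hjunc (st i) (Or.inl ⟨i, rfl⟩)
  simp only [hf]
  rw [hon i x hx.1 hx.2, mul_add, hn', add_sub_assoc, Trunc.ex_add, Trunc.ex_int, one_mul]

end Vale.Agent.P110.UF
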